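import Vale.Agent.P221X.VT.BC
import Mathlib.RingTheory.RingHom.Flat
import Mathlib.Algebra.Module.Torsion.Basic
import Mathlib.Algebra.Colimit.TensorProduct
import Mathlib.RingTheory.TensorProduct.Finite
import Mathlib.LinearAlgebra.TensorProduct.RightExactness

/-!
# P221, block VT: base change is exact on torsion modules if its truncations are flat

* `BC.injective_of_flat` : modules killed by an ideal `J`, `A / J A` flat over `H / J`;
* `BC.injective_of_fg` : reduction to finitely generated modules;
* `BC.exact_of_surj`, `BC.exact_of_inj`, `BC.map_surjective`.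
-/

open TensorProduct

noncomputable section

namespace Vale.Agent.P221X.VT

namespace BC

variable {H A Ab : Type*} [CommRing H] [CommRing A] [CommRing Ab] {lam : H →+* A}
  {K Q M : Type*} [AddCommGroup K] [Module H K] [AddCommGroup Q] [Module H Q] [AddCommGroup M]
  [Module H M]

theorem map_map (f : K →ₗ[H] Q) (g : Q →ₗ[H] M) (x : BC lam K) :
    map lam g (map lam f x) = map lam (g.comp f) x := by
  induction x using ind with
  | zero => simp only [map_zero]
  | smul b m => simp only [map_smul, map_mk, LinearMap.comp_apply]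
  | add x y hx hy => simp only [map_add, hx, hy]

theorem map_surjective (f : K →ₗ[H] Q) (hf : Function.Surjective f) :
    Function.Surjective (map lam f) := by
  intro y
  induction y using ind with
  | zero => exact ⟨0, map_zero _⟩
  | smul b m =>
    obtain ⟨x, rfl⟩ := hf m
    exact ⟨b • mk lam x, by rw [map_smul, map_mk]⟩
  | add x y hx hy =>
    obtain ⟨x', rfl⟩ := hx
    obtain ⟨y', rfl⟩ := hy
    exact ⟨x' + y', map_add _ _ _⟩

theorem smul_eq_zero_of_mem {J : Ideal H} (hK : ∀ z ∈ J, ∀ y : K, z • y = 0) {a : A}
    (ha : a ∈ J.map lam) (x : BC lam K) : a • x = 0 := by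
  induction ha using Submodule.span_induction with
  | mem a ha =>
    obtain ⟨z, hz, rfl⟩ := ha
    induction x using ind with
    | zero => exact smul_zero _
    | smul b m => rw [smul_comm, ← mk_smul, hK z hz, map_zero, smul_zero]
    | add x y hx hy => rw [smul_add, hx, hy, add_zero]
  | zero => exact zero_smul _ _
  | add a b _ _ ha hb => rw [add_smul, ha, hb, add_zero]
  | smul c a _ ha => rw [smul_eq_mul, mul_smul, ha, smul_zero]

theorem injective_of_flat' (hfl : lam.Flat) (f : K →ₗ[H] Q) (hf : Function.Injective f) :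
    Function.Injective (map lam f) := by
  have : Module.Flat H (Via lam) := hfl
  intro x y h
  apply toTensor.injective
  apply Module.Flat.lTensor_preserves_injective_linearMap (M := Via lam) f hf
  rw [← map_eq_lTensor, ← map_eq_lTensor, h]

/-- modules which are killed by `J` -/
theorem injective_of_flat (J : Ideal H) (π : A →+* Ab) (hπ : Function.Surjective π)
    (lb : H ⧸ J →+* Ab) (hc : ∀ z, π (lam z) = lb (Ideal.Quotient.mk J z))
    (hk : RingHom.ker π ≤ J.map lam) (hfl : lb.Flat) (f : K →ₗ[H] Q)
    (hf : Function.Injective f) (hQ : ∀ z ∈ J, ∀ y : Q, z • y = 0) :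
    Function.Injective (map lam f) := by
  have hK : ∀ z ∈ J, ∀ y : K, z • y = 0 := fun z hz y => hf (by rw [map_smul, hQ z hz, map_zero])
  have tK : Module.IsTorsionBySet H K J := fun y z => hK z.1 z.2 y
  have tQ : Module.IsTorsionBySet H Q J := fun y z => hQ z.1 z.2 y
  have tB : Module.IsTorsionBySet A (BC lam K) (RingHom.ker π) :=
    fun y z => smul_eq_zero_of_mem hK (hk z.2) y
  let _ := tK.module
  let _ := tQ.module
  let _ := tB.module
  let f' : K →ₗ[H ⧸ J] Q :=
    { toFun := f
      map_add' := map_add f
      map_smul' := fun z y => by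
        obtain ⟨z, rfl⟩ := Ideal.Quotient.mk_surjective z
        exact map_smul f z y }
  let cK : BC lam K →ₛₗ[π] BC lb K := lift π (mk lb) fun z m => by
    rw [hc, ← mk_smul]
    rfl
  let cQ : BC lam Q →ₛₗ[π] BC lb Q := lift π (mk lb) fun z m => by
    rw [hc, ← mk_smul]
    rfl
  let φ : Ab →+* A ⧸ RingHom.ker π := (RingHom.quotientKerEquivOfSurjective hπ).symm.toRingHom
  have hφ : ∀ a, φ (π a) = Ideal.Quotient.mk _ a := fun a =>
    (RingHom.quotientKerEquivOfSurjective hπ).symm_apply_eq.2 rfl
  let dK : BC lb K →ₛₗ[φ] BC lam K := lift φ (mk lam) fun z m => by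
    obtain ⟨z, rfl⟩ := Ideal.Quotient.mk_surjective z
    rw [← hc, hφ]
    exact mk_smul z m
  have h1 : ∀ x, dK (cK x) = x := by
    intro x
    induction x using ind with
    | zero => simp only [map_zero]
    | smul b m =>
      rw [LinearMap.map_smulₛₗ, LinearMap.map_smulₛₗ, lift_mk, lift_mk, hφ]
      rfl
    | add x y hx hy => simp only [map_add, hx, hy]
  have h2 : ∀ x, cQ (map lam f x) = map lb f' (cK x) := by
    intro x
    induction x using ind with
    | zero => simp only [map_zero]
    | smul b m =>
      rw [map_smul, LinearMap.map_smulₛₗ, LinearMap.map_smulₛₗ, map_smul, map_mk, lift_mk, lift_mk,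
        map_mk]
      rfl
    | add x y hx hy => simp only [map_add, hx, hy]
  intro x y h
  rw [← h1 x, ← h1 y]
  congr 1
  apply injective_of_flat' hfl f' hf
  rw [← h2, ← h2, h]

/-- reduction to finitely generated modules -/
theorem injective_of_fg (f : K →ₗ[H] M) (hf : Function.Injective f)
    (h : ∀ (N N' : Submodule H M) (hN : N ≤ N'), N'.FG →
      Function.Injective (map lam (Submodule.inclusion hN))) : Function.Injective (map lam f) := by
  rw [injective_iff_map_eq_zero]
  intro x hx
  obtain ⟨N, hN, y, hy⟩ := Submodule.exists_fg_le_eq_rTensor_subtype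
    (TensorProduct.comm H (Via lam) K (toTensor x))
  let e : N ≃ₗ[H] N.map f := Submodule.equivMapOfInjective f hf N
  let y' : BC lam N := toTensor.symm (TensorProduct.comm H N (Via lam) y)
  have h1 : map lam N.subtype y' = x := by
    apply toTensor.injective
    rw [map_eq_lTensor, AddEquiv.apply_symm_apply, LinearMap.lTensor_comm, ← hy,
      TensorProduct.comm_comm]
  have h2 : map lam (N.map f).subtype (map lam e.toLinearMap y') = 0 := by
    rw [map_map, ← hx, ← h1, map_map]
    rfl
  have h3 : (N.map f).subtype.rTensor (Via lam)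
      (TensorProduct.comm H _ _ (toTensor (map lam e.toLinearMap y'))) =
      (N.map f).subtype.rTensor (Via lam) 0 := by
    rw [LinearMap.rTensor_comm, ← map_eq_lTensor, h2, map_zero, map_zero, map_zero]
  obtain ⟨N', hN', hle, h4⟩ := (hN.map f).exists_rTensor_fg_inclusion_eq h3
  have h5 : map lam (Submodule.inclusion hle) (map lam e.toLinearMap y') = 0 := by
    apply toTensor.injective
    apply (TensorProduct.comm H _ _).injective
    rw [map_eq_lTensor, ← LinearMap.rTensor_comm, h4, map_zero, map_zero, map_zero]
  have h6 : map lam e.toLinearMap y' = 0 := h _ _ hle hN' (h5.trans (map_zero _).symm)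
  have h7 : y' = 0 := by
    have h8 := congrArg (map lam e.symm.toLinearMap) h6
    rw [map_map, map_zero] at h8
    have h9 : map lam (e.symm.toLinearMap.comp e.toLinearMap) = LinearMap.id :=
      hom_ext fun m => by
        rw [map_mk]
        exact congrArg (mk lam) (e.symm_apply_apply m)
    rwa [h9] at h8
  rw [← h1, h7, map_zero]

/-- right exactness -/
theorem exact_of_surj (f : K →ₗ[H] Q) (g : Q →ₗ[H] M) (hex : ∀ y, g y = 0 → ∃ x, f x = y)
    (h0 : ∀ x, g (f x) = 0) (hg : Function.Surjective g) (y : BC lam Q) (hy : map lam g y = 0) :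
    ∃ x, map lam f x = y := by
  have h1 : Function.Exact f g := fun y => ⟨hex y, by
    rintro ⟨x, rfl⟩
    exact h0 x⟩
  obtain ⟨x, hx⟩ := (lTensor_exact (Via lam) h1 hg (toTensor y)).1 (by
    rw [← map_eq_lTensor, hy, map_zero])
  refine ⟨toTensor.symm x, toTensor.injective ?_⟩
  rw [map_eq_lTensor, AddEquiv.apply_symm_apply, hx]

theorem exact_of_inj (f : K →ₗ[H] Q) (g : Q →ₗ[H] M) (hex : ∀ y, g y = 0 → ∃ x, f x = y)
    (h0 : ∀ x, g (f x) = 0) (hg : Function.Injective (map lam (LinearMap.range g).subtype))
    (y : BC lam Q) (hy : map lam g y = 0) : ∃ x, map lam f x = y := by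
  refine exact_of_surj f g.rangeRestrict (fun y hy => hex y (congrArg Subtype.val hy))
    (fun x => Subtype.ext (h0 x)) g.surjective_rangeRestrict y (hg ?_)
  rw [map_map, map_zero, ← hy]
  rfl

end BC

end Vale.Agent.P221X.VT
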