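import Vale.Agent.P221X.VT.Tr
import Vale.Agent.P251.F.Framed
import Vale.Agent.P261Z.T3.ExPt

/-!
# P221, block VT: the action of isomorphisms of formal group laws on `V χ W`

For `φ : B ⟶ B'` and an invertible series `ga` over `B'` with `ga • φ_*(law χ) = law χ'`:

* `act H hB φ ga h W : V χ W →ₛₗ[φ] V χ' W`;
* `map_act` (natural in `W`), `act_cross`, `act_one'`, `act_gen` (`ga'(0) ^ j`);
* `act_act` : `act φ₂ ga₂ ∘ act φ₁ ga₁ = act (φ₂ φ₁) (ga₂ * φ₂ ga₁)`;
* `act_lin` : `lin a` acts by `a ^ deg`; `act_eq_bc` : `ga = 1` is the change of the ring;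
* `Theta` : the linear equivalence for `φ = id`;
* `Coc`, `Coc.action` : the semilinear action of a group.
-/

open CategoryTheory MonoidalCategory Limits Pretriangulated MonObj

set_option linter.unusedSectionVars false

universe v u

noncomputable section

namespace Vale.Agent.P221X.VT

open Vale.Agent.P251 Vale.Agent.P251.T Vale.Agent.P251.M Vale.Agent.P251.M.EvenSpheres
  Vale.Agent.P251.S Vale.Agent.P251.F Vale.Agent.P251.I Vale.Agent.P251.Z Vale.Agent.P251.X
  Vale.Agent.P257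

variable {T : Type u} [Category.{v} T] [Preadditive T] [HasZeroObject T]
    [HasShift T ℤ] [∀ n : ℤ, (shiftFunctor T n).Additive] [Pretriangulated T] [IsTriangulated T]
    [MonoidalCategory T] [SymmetricCategory T] [TensorTriangulated T] [MonoidalClosed T]
    [HasCoproducts.{0} T] [HasProducts.{0} T] [StableCat T] {D : MUData T}
  {Fc : SpaceFunctor T} {e : Fc.S.obj CCF ≅ (stdEven T).L}
  {B B' B'' : Type*} [CommRing B] [CommRing B'] [CommRing B'']

variable (D B) in
/-- Homomorphisms `π_{2*} MU ⟶ B` are determined by their laws. -/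
def LawExt : Prop :=
  ∀ g g' : HRing (stdEven T) D.R →+* B, D.law.map g = D.law.map g' → g = g'

theorem lawExt_of {p : ℕ} [Fact p.Prime] (hp : P261Z.T3.MUAt D p) (hB : (p : B) = 0) :
    LawExt D B := fun g g' h => P261Z.T3.hom_extAt hp hB fun z => by
  rw [L0, Laz.map_lift, Laz.map_lift, h]

/-- every law over a ring of characteristic `p` is the law of a homomorphism -/
theorem exists_hom_law {p : ℕ} [Fact p.Prime] (hp : P261Z.T3.MUAt D p) (hB : (p : B) = 0)
    (F : Law B) : ∃ χ : HRing (stdEven T) D.R →+* B, D.law.map χ = F := by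
  obtain ⟨g, hg⟩ := P261Z.T3.exists_homAt hp hB (Laz.lift F)
  refine ⟨g, ?_⟩
  have h : g.comp (Laz.lift D.law) = Laz.lift F := RingHom.ext hg
  rw [Laz.comp_lift] at h
  have h2 := congrArg (Law.map · Laz.univ) h
  simpa using h2

theorem str_mul_lin (ga : InvSeries B) : ga.str * InvSeries.lin ga.lead = ga := by
  rw [InvSeries.str, inv_mul_cancel_right]

variable (H : MUUniv e D)

/-- the point of `π_{2*}(R ⊗ R)` of a strict series `σ` and a point `χ` -/
abbrev clsG (χ : HRing (stdEven T) D.R →+* B) (σ : InvSeries B) :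
    HRing (stdEven T) (D.R ⊗ D.R) →+* B := cls H (𝟙 D.R) χ σ

theorem clsG_ηL (χ : HRing (stdEven T) D.R →+* B) (σ : InvSeries B) :
    (clsG H χ σ).comp (ηL D) = χ := cls_inl H _ χ σ

theorem clsG_uSer (χ : HRing (stdEven T) D.R →+* B) {σ : InvSeries B} (hσ : σ ∈ strict B) :
    InvSeries.map (clsG H χ σ) (uSer D) = σ := by
  rw [uSer_eq]
  exact cls_ser H _ χ hσ

theorem law_ηR (θ : HRing (stdEven T) (D.R ⊗ D.R) →+* B) :
    D.law.map (θ.comp (ηR D)) = InvSeries.map θ (uSer D) • D.law.map (θ.comp (ηL D)) := by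
  rw [← Law.map_map, ← uSer_smul, InvSeries.map_smul, Law.map_map]

section act

variable (hB : LawExt D B') {χ : HRing (stdEven T) D.R →+* B} {χ' : HRing (stdEven T) D.R →+* B'}
  (φ : B →+* B') (ga : InvSeries B') (h : ga • (D.law.map χ).map φ = D.law.map χ')

include hB h in
theorem scl_clsG : scl ga.lead ((clsG H χ' ga.str⁻¹).comp (ηR D)) = φ.comp χ := by
  apply hB
  rw [law_scl, law_ηR, clsG_uSer H _ (inv_mem ga.str_mem), clsG_ηL, ← h, ← Law.map_map, smul_smul,
    smul_smul, ← mul_inv_rev, str_mul_lin, inv_mul_cancel, one_smul]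

/-- **The map `V χ W ⟶ V χ' W` of an isomorphism `ga : φ_*(law χ) ⟶ law χ'`.** -/
def act (W : T) : V χ W →ₛₗ[φ] V χ' W :=
  tr H φ (clsG H χ' ga.str⁻¹) ga.lead (clsG_ηL H _ _) (scl_clsG H hB φ ga h) W

theorem act_of {W : T} (j : ℤ) (x : (stdEven T).S j ⟶ D.R ⊗ W) :
    act H hB φ ga h W (V.of χ W j x) = ((ga.lead ^ j : B'ˣ) : B') •
      Th H (clsG H χ' ga.str⁻¹) χ' W (pR D W (MP.of (stdEven T) D.R W j x)) :=
  tr_of H _ _ _ _ _ j x

theorem map_act {X Y : T} (f : X ⟶ Y) (x : V χ X) :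
    V.map χ' f (act H hB φ ga h X x) = act H hB φ ga h Y (V.map χ f x) :=
  map_tr H _ _ _ _ _ f x

theorem act_cross {X Y : T} (x : V χ X) (y : V χ Y) :
    act H hB φ ga h (X ⊗ Y) (V.cross χ X Y x y) =
      V.cross χ' X Y (act H hB φ ga h X x) (act H hB φ ga h Y y) :=
  tr_cross H _ _ _ _ _ x y

theorem act_gen (j : ℤ) :
    act H hB φ ga h _ (V.gen χ j) = ((ga.lead ^ j : B'ˣ) : B') • V.gen χ' j :=
  tr_gen H _ _ _ _ _ j

theorem act_one' : act H hB φ ga h _ (V.one χ) = V.one χ' := tr_one H _ _ _ _ _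

/-- a linear series acts by the power of the degree -/
theorem act_lin (a : B'ˣ) (ha : ga = InvSeries.lin a) {W : T} (j : ℤ)
    (x : (stdEven T).S j ⟶ D.R ⊗ W) :
    act H hB φ ga h W (V.of χ W j x) = ((a ^ j : B'ˣ) : B') • V.of χ' W j x := by
  subst ha
  have h1 : (InvSeries.lin a).str = 1 := by
    rw [InvSeries.str, InvSeries.lead_lin, mul_inv_cancel]
  refine (tr_counit H _ _ _ _ _ ?_ j x).trans ?_
  · rw [clsG_uSer H _ (inv_mem (InvSeries.str_mem _)), h1, inv_one]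
  · rw [InvSeries.lead_lin]

theorem act_one_mk (h1 : ga = 1) {W : T} (m : MP (stdEven T) D.R W) :
    act H hB φ ga h W (V.mk χ W m) = V.mk χ' W m := by
  induction m using MP.ind with
  | zero => simp only [map_zero]
  | of j x =>
    rw [act_lin H hB φ ga h 1 (by rw [h1, map_one]), one_zpow, Units.val_one, one_smul]
  | add x y hx hy => simp only [map_add, hx, hy]

theorem act_eq_bc (h1 : ga = 1) (h2 : φ.comp χ = χ') (W : T) :
    act H hB φ ga h W = V.bc φ h2 W :=
  BC.hom_ext fun m => by rw [act_one_mk H hB φ ga h h1, V.bc_mk]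

end act

theorem act_id (hB : LawExt D B) {χ : HRing (stdEven T) D.R →+* B} (φ : B →+* B)
    (ga : InvSeries B) (h : ga • (D.law.map χ).map φ = D.law.map χ) (hφ : ∀ b, φ b = b)
    (h1 : ga = 1) {W : T} (x : V χ W) : act H hB φ ga h W x = x := by
  induction x using BC.ind with
  | zero => rw [map_zero]
  | smul b m => rw [LinearMap.map_smulₛₗ, hφ, act_one_mk H hB φ ga h h1]
  | add x y hx hy => rw [map_add, hx, hy]

/-- **Composition.** -/
theorem act_act (hB' : LawExt D B') (hB'' : LawExt D B'') {χ : HRing (stdEven T) D.R →+* B}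
    {χ' : HRing (stdEven T) D.R →+* B'} {χ'' : HRing (stdEven T) D.R →+* B''}
    (φ₁ : B →+* B') (ga₁ : InvSeries B') (h₁ : ga₁ • (D.law.map χ).map φ₁ = D.law.map χ')
    (φ₂ : B' →+* B'') (ga₂ : InvSeries B'') (h₂ : ga₂ • (D.law.map χ').map φ₂ = D.law.map χ'')
    (φ₃ : B →+* B'') (ga₃ : InvSeries B'') (h₃ : ga₃ • (D.law.map χ).map φ₃ = D.law.map χ'')
    (hφ : ∀ b, φ₃ b = φ₂ (φ₁ b)) (hga : ga₃ = ga₂ * InvSeries.map φ₂ ga₁) {W : T} (x : V χ W) :
    act H hB'' φ₂ ga₂ h₂ W (act H hB' φ₁ ga₁ h₁ W x) = act H hB'' φ₃ ga₃ h₃ W x := by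
  have ha : ga₃.lead = Units.map (φ₂ : B' →* B'') ga₁.lead * ga₂.lead := by
    rw [hga, InvSeries.lead_mul, InvSeries.lead_map, mul_comm]
  refine tr_tr H _ _ _ _ _ _ _ _ _ _ _ _ _ _ _ hφ ha ?_ x
  rw [clsG_uSer H _ (inv_mem ga₃.str_mem), clsG_uSer H _ (inv_mem ga₂.str_mem), ← InvSeries.map_map,
    clsG_uSer H _ (inv_mem ga₁.str_mem), map_inv, InvSeries.map_str, InvSeries.str, InvSeries.str,
    InvSeries.str, ha, hga, InvSeries.lead_map, mul_comm (Units.map _ _), map_mul]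
  group

theorem smul_comp_law {χ : HRing (stdEven T) D.R →+* B}
    {χ' : HRing (stdEven T) D.R →+* B'} {χ'' : HRing (stdEven T) D.R →+* B''}
    {φ₁ : B →+* B'} {ga₁ : InvSeries B'} (h₁ : ga₁ • (D.law.map χ).map φ₁ = D.law.map χ')
    {φ₂ : B' →+* B''} {ga₂ : InvSeries B''} (h₂ : ga₂ • (D.law.map χ').map φ₂ = D.law.map χ'') :
    (ga₂ * InvSeries.map φ₂ ga₁) • (D.law.map χ).map (φ₂.comp φ₁) = D.law.map χ'' := by
  rw [mul_smul, ← Law.map_map φ₁ φ₂, ← InvSeries.map_smul, h₁, h₂]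

/-- compatibility with the change of the ring -/
theorem bc_act (hB' : LawExt D B') (hB'' : LawExt D B'') {χ : HRing (stdEven T) D.R →+* B}
    {χ' : HRing (stdEven T) D.R →+* B'} {χ'' : HRing (stdEven T) D.R →+* B''}
    (φ₁ : B →+* B') (ga₁ : InvSeries B') (h₁ : ga₁ • (D.law.map χ).map φ₁ = D.law.map χ')
    (φ₂ : B' →+* B'') (h₂ : φ₂.comp χ' = χ'') (φ₃ : B →+* B'') (ga₃ : InvSeries B'')
    (h₃ : ga₃ • (D.law.map χ).map φ₃ = D.law.map χ'')
    (hφ : ∀ b, φ₃ b = φ₂ (φ₁ b)) (hga : ga₃ = InvSeries.map φ₂ ga₁) {W : T} (x : V χ W) :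
    V.bc φ₂ h₂ W (act H hB' φ₁ ga₁ h₁ W x) = act H hB'' φ₃ ga₃ h₃ W x := by
  have h4 : (1 : InvSeries B'') • (D.law.map χ').map φ₂ = D.law.map χ'' := by
    rw [one_smul, Law.map_map, h₂]
  rw [← act_eq_bc H hB'' φ₂ 1 h4 rfl h₂]
  exact act_act H hB' hB'' φ₁ ga₁ h₁ φ₂ 1 h4 φ₃ ga₃ h₃ hφ (by rw [hga, _root_.one_mul]) x

theorem act_bc (hB' : LawExt D B') (hB'' : LawExt D B'') {χ : HRing (stdEven T) D.R →+* B}
    {χ' : HRing (stdEven T) D.R →+* B'} {χ'' : HRing (stdEven T) D.R →+* B''}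
    (φ₁ : B →+* B') (h₁ : φ₁.comp χ = χ')
    (φ₂ : B' →+* B'') (ga₂ : InvSeries B'') (h₂ : ga₂ • (D.law.map χ').map φ₂ = D.law.map χ'')
    (φ₃ : B →+* B'') (h₃ : ga₂ • (D.law.map χ).map φ₃ = D.law.map χ'')
    (hφ : ∀ b, φ₃ b = φ₂ (φ₁ b)) {W : T} (x : V χ W) :
    act H hB'' φ₂ ga₂ h₂ W (V.bc φ₁ h₁ W x) = act H hB'' φ₃ ga₂ h₃ W x := by
  have h4 : (1 : InvSeries B') • (D.law.map χ).map φ₁ = D.law.map χ' := by
    rw [one_smul, Law.map_map, h₁]
  rw [← act_eq_bc H hB' φ₁ 1 h4 rfl h₁]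
  exact act_act H hB' hB'' φ₁ 1 h4 φ₂ ga₂ h₂ φ₃ ga₂ h₃ hφ (by rw [map_one, _root_.mul_one]) x

/-! ### The linear equivalence -/

section Theta

variable (hB : LawExt D B) {χ χ' : HRing (stdEven T) D.R →+* B} (ga : InvSeries B)
  (h : ga • D.law.map χ = D.law.map χ')

include h in
theorem smul_id_law : ga • (D.law.map χ).map (RingHom.id B) = D.law.map χ' := by
  rw [Law.map_id, h]

include h in
theorem inv_smul_id_law : ga⁻¹ • (D.law.map χ').map (RingHom.id B) = D.law.map χ := by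
  rw [Law.map_id, ← h, inv_smul_smul]

/-- **`V χ W ≃ V χ' W`** for an isomorphism `ga : law χ ⟶ law χ'`. -/
def Theta (W : T) : V χ W ≃ₗ[B] V χ' W :=
  { act H hB (RingHom.id B) ga (smul_id_law ga h) W with
    invFun := act H hB (RingHom.id B) ga⁻¹ (inv_smul_id_law ga h) W
    left_inv := fun x => (act_act H hB hB _ _ _ _ _ _ (RingHom.id B) 1
      (by rw [one_smul, Law.map_id]) (fun _ => rfl)
      (by rw [InvSeries.map_id, inv_mul_cancel]) x).trans (act_id H hB _ _ _ (fun _ => rfl) rfl x)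
    right_inv := fun x => (act_act H hB hB _ _ _ _ _ _ (RingHom.id B) 1
      (by rw [one_smul, Law.map_id]) (fun _ => rfl)
      (by rw [InvSeries.map_id, mul_inv_cancel]) x).trans (act_id H hB _ _ _ (fun _ => rfl) rfl x) }

theorem Theta_apply {W : T} (x : V χ W) :
    Theta H hB ga h W x = act H hB (RingHom.id B) ga (smul_id_law ga h) W x := rfl

theorem Theta_symm_apply {W : T} (x : V χ' W) :
    (Theta H hB ga h W).symm x = act H hB (RingHom.id B) ga⁻¹ (inv_smul_id_law ga h) W x := rfl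

end Theta

/-! ### Group actions -/

/-- A group acting on the pair (ring, law): `ga g : g_* F ⟶ F` is a cocycle. -/
structure Coc (G : Type*) [Group G] {B : Type*} [CommRing B] [MulSemiringAction G B]
    (F : Law B) where
  /-- the isomorphism -/
  ga : G → InvSeries B
  smul (g : G) : ga g • F.map (MulSemiringAction.toRingHom G B g) = F
  mul (g g' : G) : ga (g * g') = ga g * InvSeries.map (MulSemiringAction.toRingHom G B g) (ga g')

namespace Coc

variable {G : Type*} [Group G] [MulSemiringAction G B]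

theorem one {F : Law B} (c : Coc G F) : c.ga 1 = 1 := by
  have h := c.mul 1 1
  have h1 : MulSemiringAction.toRingHom G B 1 = RingHom.id B := RingHom.ext fun b => one_smul G b
  rw [_root_.mul_one, h1, InvSeries.map_id] at h
  exact left_eq_mul.1 h

variable (hB : LawExt D B) {χ : HRing (stdEven T) D.R →+* B} (c : Coc G (D.law.map χ))

/-- the action of one element -/
def hom (g : G) (W : T) : V χ W →ₛₗ[MulSemiringAction.toRingHom G B g] V χ W :=
  act H hB _ (c.ga g) (c.smul g) W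

theorem hom_one {W : T} (x : V χ W) : c.hom H hB 1 W x = x :=
  act_id H hB _ _ _ (fun b => one_smul G b) c.one x

theorem hom_mul (g g' : G) {W : T} (x : V χ W) :
    c.hom H hB (g * g') W x = c.hom H hB g W (c.hom H hB g' W x) :=
  (act_act H hB hB _ _ _ _ _ _ _ _ _ (fun b => mul_smul g g' b) (c.mul g g') x).symm

theorem hom_smul (g : G) {W : T} (b : B) (x : V χ W) :
    c.hom H hB g W (b • x) = (g • b) • c.hom H hB g W x :=
  LinearMap.map_smulₛₗ _ b x

theorem map_hom (g : G) {X Y : T} (f : X ⟶ Y) (x : V χ X) :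
    V.map χ f (c.hom H hB g X x) = c.hom H hB g Y (V.map χ f x) :=
  map_act H hB _ _ _ f x

theorem hom_cross (g : G) {X Y : T} (x : V χ X) (y : V χ Y) :
    c.hom H hB g (X ⊗ Y) (V.cross χ X Y x y) =
      V.cross χ X Y (c.hom H hB g X x) (c.hom H hB g Y y) :=
  act_cross H hB _ _ _ x y

theorem hom_gen (g : G) (j : ℤ) :
    c.hom H hB g _ (V.gen χ j) = (((c.ga g).lead ^ j : Bˣ) : B) • V.gen χ j :=
  act_gen H hB _ _ _ j

/-- The action of `G` on `V χ W`. -/
@[reducible] def action (W : T) : DistribMulAction G (V χ W) where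
  smul g x := c.hom H hB g W x
  one_smul x := c.hom_one H hB x
  mul_smul g g' x := c.hom_mul H hB g g' x
  smul_zero g := map_zero (c.hom H hB g W)
  smul_add g x y := map_add (c.hom H hB g W) x y

end Coc

end Vale.Agent.P221X.VT
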