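import Vale.Agent.P221X.VT.Exact
import Vale.Agent.P221X.GD.LP

/-!
# P221, block VT: the Lubin-Tate point `F[[u]]` in height two

* `exists_lto` : the law `FO p F` over `F[[u]]` has the truncations of Lubin-Tate data;
* `Ih_FO` : `I_2 = (u)`; `vv_FO` : `v₁` is `u` times a unit;
* `V.exact_FO` : exactness of `V χ` on triangles with a torsion third term.
-/

open CategoryTheory MonoidalCategory Limits Pretriangulated PowerSeries

set_option linter.unusedSectionVars false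

universe v u

noncomputable section

namespace Vale.Agent.P221X.VT

open Vale.Agent.P251 Vale.Agent.P251.T Vale.Agent.P251.M Vale.Agent.P251.F Vale.Agent.P251.I
  Vale.Agent.P251.X Vale.Agent.P261Z Vale.Agent.P261Z.N

variable {p : ℕ} [hp : Fact p.Prime] {F : Type} [Field F]

variable (F) in
/-- polynomials as power series -/
def sO : MvPolynomial (Fin 1) F →+* F⟦X⟧ :=
  ((Qt.toO F).toRingEquiv : RR 1 F →+* F⟦X⟧).comp MvPolynomial.coeToMvPowerSeries.ringHom

theorem coeff_sO (n : ℕ) (x : MvPolynomial (Fin 1) F) :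
    coeff n (sO F x) = MvPolynomial.coeff (Finsupp.single 0 n) x :=
  (Qt.coeff_toO n _).trans (MvPolynomial.coeff_coe _ _)

theorem sO_X (i : Fin 1) : sO F (MvPolynomial.X i) = X := by
  have h : (MvPolynomial.coeToMvPowerSeries.ringHom (MvPolynomial.X i) : RR 1 F) =
      MvPowerSeries.X i := MvPolynomial.coe_X i
  exact (congrArg (Qt.toO F) h).trans (Qt.toO_X i)

theorem sO_mem (j : ℕ) (x : MvPolynomial (Fin 1) F) :
    sO F x ∈ Ideal.span {(X : F⟦X⟧) ^ j} ↔ x ∈ MvPolynomial.idealOfVars (Fin 1) F ^ j := by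
  rw [Ideal.mem_span_singleton, X_pow_dvd_iff, MvPolynomial.mem_pow_idealOfVars_iff']
  constructor
  · intro h y hy
    have e : y = Finsupp.single 0 (y 0) := Finsupp.unique_single y
    rw [e, ← coeff_sO]
    refine h _ ?_
    rwa [e, Finsupp.degree_single] at hy
  · intro h m hm
    rw [coeff_sO]
    exact h _ (by rwa [Finsupp.degree_single])

variable (F) in
/-- the truncations agree -/
def sE (j : ℕ) : EE F 1 j →+* F⟦X⟧ ⧸ Ideal.span {(X : F⟦X⟧) ^ (j + 1)} :=
  Ideal.Quotient.lift _ ((Ideal.Quotient.mk _).comp (sO F)) fun a ha =>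
    Ideal.Quotient.eq_zero_iff_mem.2 ((sO_mem _ a).2 ha)

theorem sE_mk (j : ℕ) (x : MvPolynomial (Fin 1) F) :
    sE F j (EE.mk F 1 j x) = Ideal.Quotient.mk _ (sO F x) := rfl

theorem sE_bijective (j : ℕ) : Function.Bijective (sE F j) := by
  constructor
  · rw [injective_iff_map_eq_zero]
    intro x hx
    obtain ⟨x, rfl⟩ := Ideal.Quotient.mk_surjective x
    exact Ideal.Quotient.eq_zero_iff_mem.2
      ((sO_mem _ x).1 (Ideal.Quotient.eq_zero_iff_mem.1 ((sE_mk j x).symm.trans hx)))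
  · intro f
    obtain ⟨f, rfl⟩ := Ideal.Quotient.mk_surjective f
    refine ⟨EE.mk F 1 j (∑ i ∈ Finset.range (j + 1),
      MvPolynomial.monomial (Finsupp.single 0 i) (coeff i f)), ?_⟩
    rw [sE_mk, Ideal.Quotient.eq, Ideal.mem_span_singleton, X_pow_dvd_iff]
    intro m hm
    rw [map_sub, coeff_sO, MvPolynomial.coeff_sum, Finset.sum_eq_single m, MvPolynomial.coeff_monomial,
      if_pos rfl, sub_self]
    · intro i _ hi
      rw [MvPolynomial.coeff_monomial, if_neg]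
      exact fun h => hi (Finsupp.single_injective _ h)
    · exact fun h => (h (Finset.mem_range.2 hm)).elim

variable (F) in
/-- the truncation -/
def rE (j : ℕ) : F⟦X⟧ →+* EE F 1 j :=
  (RingEquiv.ofBijective _ (sE_bijective (F := F) j)).symm.toRingHom.comp (Ideal.Quotient.mk _)

theorem sE_rE (j : ℕ) (f : F⟦X⟧) : sE F j (rE F j f) = Ideal.Quotient.mk _ f :=
  (RingEquiv.ofBijective _ (sE_bijective (F := F) j)).apply_symm_apply _

theorem rE_sO (j : ℕ) (x : MvPolynomial (Fin 1) F) : rE F j (sO F x) = EE.mk F 1 j x :=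
  (sE_bijective j).1 ((sE_rE j _).trans (sE_mk j x).symm)

theorem FU_sO {L : LTD p 2 F} (hL : IsHz p L) : L.FU.map (sO F) = Qt.FO p F := by
  rw [hL, hzn_map, Qt.FO]
  refine hzn_congr p fun i h1 h2 => ?_
  rw [Rx.ext1_eq _ h1 h2]
  exact sO_X _

theorem Ih_FO (hF : Nat.card F = p ^ 2) : Ih p 2 (Qt.FO p F) = Ideal.span {(X : F⟦X⟧)} := by
  obtain ⟨L, hL⟩ := exd (pser p) 2 F two_ne_zero hF
  rw [← FU_sO hL, Ih_map, L.ih, MvPolynomial.idealOfVars, Ideal.map_span, ← Set.range_comp]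
  congr 1
  ext f
  constructor
  · rintro ⟨i, rfl⟩
    exact sO_X i
  · rintro rfl
    exact ⟨(0 : Fin 1), sO_X _⟩

theorem p_eq_zero_O (hF : Nat.card F = p ^ 2) : (p : F⟦X⟧) = 0 := by
  have := Qt.charP_of_card hF
  rw [← map_natCast (C (R := F)), CharP.cast_eq_zero, map_zero]

theorem exists_lto (hF : Nat.card F = p ^ 2) :
    ∃ L : LTD p 2 F, Nonempty (LTO L (Qt.FO p F)) := by
  obtain ⟨L, hL⟩ := exd (pser p) 2 F two_ne_zero hF
  refine ⟨L, ⟨⟨rE F, fun j x => ?_, fun j f hf => ?_, fun j => ?_, p_eq_zero_O hF⟩⟩⟩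
  · obtain ⟨x, rfl⟩ := Ideal.Quotient.mk_surjective x
    exact ⟨sO F x, rE_sO j x⟩
  · rw [Ih_FO hF, Ideal.span_singleton_pow, ← Ideal.Quotient.eq_zero_iff_mem, ← sE_rE,
      show rE F j f = 0 from hf, map_zero]
  · rw [← FU_sO hL, Law.map_map, LTD.FE]
    congr 1
    exact RingHom.ext (rE_sO j)

/-- `v₁` is `u` times a unit -/
theorem vv_FO (hF : Nat.card F = p ^ 2) : ∃ w : F⟦X⟧ˣ, vv p 1 (Qt.FO p F) = (w : F⟦X⟧) * X := by
  have h1 : Ideal.span {vv p 1 (Qt.FO p F)} = Ideal.span {(X : F⟦X⟧)} := by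
    rw [← Ih_FO hF]
    refine le_antisymm (Ideal.span_le.2 ?_) (Ideal.span_le.2 ?_)
    · rintro _ rfl
      exact Ideal.subset_span ⟨1, one_lt_two, rfl⟩
    · rintro _ ⟨i, hi, rfl⟩
      obtain rfl | rfl : i = 0 ∨ i = 1 := by omega
      · rw [vv_zero, p_eq_zero_O hF]
        exact zero_mem _
      · exact Ideal.mem_span_singleton_self _
  obtain ⟨w, hw⟩ := (Ideal.span_singleton_eq_span_singleton.1 h1).symm
  exact ⟨w, by rw [← hw, mul_comm]⟩

variable {T : Type u} [Category.{v} T] [Preadditive T] [HasZeroObject T] [HasShift T ℤ]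
  [∀ n : ℤ, (shiftFunctor T n).Additive] [Pretriangulated T] [IsTriangulated T]
  [MonoidalCategory T] [SymmetricCategory T] [TensorTriangulated T] [MonoidalClosed T]
  [HasCoproducts.{0} T] [HasProducts.{0} T] [StableCat T]
  {D : MUData T} {Fc : SpaceFunctor T} {e : Fc.S.obj CCF ≅ (stdEven T).L}

/-- **Exactness** for the point `F[[u]]`. -/
theorem V.exact_FO (H : MUUniv e D) (hD : T3.MUAt D p) (hF : Nat.card F = p ^ 2)
    {χ : HRing (stdEven T) D.R →+* F⟦X⟧} (hχ : D.law.map χ = Qt.FO p F) {X Y Z : T} {f : X ⟶ Y}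
    {g : Y ⟶ Z} {δ : Z ⟶ X⟦(1 : ℤ)⟧} (hT : Triangle.mk f g δ ∈ distTriang T)
    (hZ : Tors D p 2 (MP (stdEven T) D.R Z)) (y : V χ Y) (hy : V.map χ g y = 0) :
    ∃ x, V.map χ f x = y := by
  obtain ⟨L, ⟨S⟩⟩ := exists_lto (p := p) hF
  exact V.exact_of_lto H hD S hχ hT hZ y hy

end Vale.Agent.P221X.VT
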