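import Vale.Agent.P221X.VT.Act

/-!
# P221, block VT: multiplication, augmentation, modules

* `V.kmap χ f : V χ X →ₗ V χ Y` for `f : X ⟶ P ⊗ Y`; `V.mul χ W : V χ (P ⊗ W) →ₗ V χ W`;
* `V.hur χ j y` : the Hurewicz class of `y : S^{2j} ⟶ Y`;
* `V.mkG χ γ : V χ P` for `γ ∈ π_{2*}(P ⊗ P)`, `V.eps χ : V χ P →ₗ B`, `mul_cross`;
* `V.rho a s z` : the action of `V χ P` on `V χ Y` for a module `Y`; `V.rhoG a` the ring
  homomorphism `π_{2*}(P ⊗ P) ⟶ End (V χ Y)`; `ind_mod` : `V χ Y` is spanned by the `rhoG γ (hur y)`;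
* `thG` : the point of `π_{2*}(R ⊗ R)` of an isomorphism, `eps_act` : `eps ∘ act ∘ mkG = thG`.
-/

open CategoryTheory MonoidalCategory Limits Pretriangulated MonObj

set_option linter.unusedSectionVars false

universe v u

noncomputable section

namespace Vale.Agent.P221X.VT

open Vale.Agent.P251 Vale.Agent.P251.T Vale.Agent.P251.M Vale.Agent.P251.M.EvenSpheres
  Vale.Agent.P251.S Vale.Agent.P251.F Vale.Agent.P251.I Vale.Agent.P251.Z Vale.Agent.P251.X
  Vale.Agent.P257

section general

variable {T : Type u} [Category.{v} T] [Preadditive T] [MonoidalCategory T]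
  [MonoidalPreadditive T] [SymmetricCategory T] {E : EvenSpheres T} {P : T} [MonObj P]
  [IsCommMonObj P] {B B' : Type*} [CommRing B] [CommRing B']

theorem free_act_eq (W : T) : (ModStr.free P W).act = FM.bind (𝟙 (P ⊗ W)) := by
  rw [FM.bind, whiskerLeft_id, Category.id_comp]
  rfl

theorem isLinear_bind {X Y : T} (f : X ⟶ P ⊗ Y) :
    (ModStr.free P X).IsLinear (ModStr.free P Y) (FM.bind f) := by
  change (ModStr.free P X).act ≫ FM.bind f = P ◁ FM.bind f ≫ (ModStr.free P Y).act
  rw [free_act_eq, FM.bind_bind, Category.id_comp]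
  rfl

variable (E) in
/-- the map of `MP` induced by a morphism of free modules -/
def kM {X Y : T} (f : X ⟶ P ⊗ Y) : MP E P X →ₗ[HRing E P] MP E P Y where
  toFun := MP.lift fun j =>
    { toFun := fun x => MP.of E P Y j (x ≫ FM.bind f)
      map_zero' := by rw [zero_comp, map_zero]
      map_add' := fun x y => by rw [Preadditive.add_comp, map_add] }
  map_add' := map_add _
  map_smul' a x := by
    rw [RingHom.id_apply]
    induction a using DirectSum.induction_on with
    | zero => rw [zero_smul, map_zero, zero_smul]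
    | of i a =>
      induction x using MP.ind with
      | zero => rw [smul_zero, map_zero, smul_zero]
      | of j x =>
        change MP.lift _ (HRing.of E P i a • MP.of E P X j x) =
          HRing.of E P i a • MP.lift _ (MP.of E P X j x)
        rw [MP.smul_of (k := i + j) rfl, MP.lift_of, MP.lift_of]
        change MP.of E P Y (i + j) (gsmul (ModStr.free P X) rfl a x ≫ FM.bind f) =
          HRing.of E P i a • MP.of E P Y j (x ≫ FM.bind f)
        rw [MP.smul_of (k := i + j) rfl, gsmul_comp _ _ (isLinear_bind f)]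
      | add x y hx hy => rw [smul_add, map_add, map_add, hx, hy, smul_add]
    | add a b ha hb => rw [add_smul, map_add, ha, hb, add_smul]

theorem kM_of {X Y : T} (f : X ⟶ P ⊗ Y) (j : ℤ) (x : E.S j ⟶ P ⊗ X) :
    kM E f (MP.of E P X j x) = MP.of E P Y j (x ≫ FM.bind f) :=
  MP.lift_of (W := X) (B := MP E P Y) (fun j =>
    { toFun := fun x => MP.of E P Y j (x ≫ FM.bind f)
      map_zero' := by rw [zero_comp, map_zero]
      map_add' := fun x y => by rw [Preadditive.add_comp, map_add] }) j x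

variable (E P) in
/-- `π_{2*}(P ⊗ K)` as `MP E P K` -/
def toMP (K : T) [MonObj K] : HRing E (P ⊗ K) ≃+ MP E P K := AddEquiv.refl _

theorem toMP_of {K : T} [MonObj K] (j : ℤ) (x : E.S j ⟶ P ⊗ K) :
    toMP E P K (HRing.of E (P ⊗ K) j x) = MP.of E P K j x := rfl

theorem smul_toMP {K : T} [MonObj K] (z : HRing E P) (g : HRing E (P ⊗ K)) :
    z • toMP E P K g = toMP E P K (HRing.map (inlM P K) z * g) := by
  induction z using DirectSum.induction_on with
  | zero => rw [zero_smul, map_zero, zero_mul, map_zero]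
  | add z z' h h' => rw [add_smul, map_add, add_mul, map_add, h, h']
  | of i z =>
    induction g using DirectSum.induction_on with
    | zero => rw [map_zero, smul_zero, mul_zero, map_zero]
    | add g g' h h' => rw [map_add, smul_add, mul_add, map_add, h, h']
    | of j g =>
      change HRing.of E P i z • MP.of E P K j g =
        toMP E P K (HRing.map (inlM P K) (HRing.of E P i z) * HRing.of E (P ⊗ K) j g)
      rw [MP.smul_of (k := i + j) rfl, HRing.map_of, of_mul_of (p := i + j) rfl, toMP_of]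
      congr 1
      unfold gsmul gmul
      rw [ext_comp_left, Category.assoc, inlM_mul_id]
      rfl

theorem push_toMP {P' K : T} [MonObj P'] [IsCommMonObj P'] [MonObj K] (f : P ⟶ P') [IsMonHom f]
    (g : HRing E (P ⊗ K)) : MP.push E f K (toMP E P K g) = toMP E P' K (HRing.map (f ▷ K) g) := by
  induction g using DirectSum.induction_on with
  | zero => simp only [map_zero]
  | add g g' h h' => simp only [map_add, h, h']
  | of j g =>
    change MP.push E f K (MP.of E P K j g) = toMP E P' K (HRing.map (f ▷ K) (HRing.of E _ j g))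
    rw [MP.push_of, HRing.map_of, toMP_of]

namespace V

variable (χ : HRing E P →+* B)

/-- functoriality for morphisms of free modules -/
def kmap {X Y : T} (f : X ⟶ P ⊗ Y) : V χ X →ₗ[B] V χ Y := BC.map χ (kM E f)

theorem kmap_of {X Y : T} (f : X ⟶ P ⊗ Y) (j : ℤ) (x : E.S j ⟶ P ⊗ X) :
    kmap χ f (of χ X j x) = of χ Y j (x ≫ FM.bind f) := by
  rw [kmap, BC.map_mk, kM_of]

theorem kmap_unit {X Y : T} (f : X ⟶ Y) : kmap χ (f ≫ FM.unit P Y) = map χ f :=
  hom_ext fun j x => by rw [kmap_of, map_of, FM.bind_comp_unit]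

theorem kmap_kmap {X Y Z : T} (f : X ⟶ P ⊗ Y) (g : Y ⟶ P ⊗ Z) (x : V χ X) :
    kmap χ g (kmap χ f x) = kmap χ (f ≫ FM.bind g) x := by
  have h : (kmap χ g).comp (kmap χ f) = kmap χ (f ≫ FM.bind g) := hom_ext fun j x => by
    rw [LinearMap.comp_apply, kmap_of, kmap_of, kmap_of, Category.assoc, FM.bind_bind]
  exact DFunLike.congr_fun h x

theorem kmap_map {X Y Z : T} (f : X ⟶ Y) (g : Y ⟶ P ⊗ Z) (x : V χ X) :
    kmap χ g (map χ f x) = kmap χ (f ≫ g) x := by
  rw [← kmap_unit, kmap_kmap, Category.assoc, FM.unit_bind]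

theorem map_kmap {X Y Z : T} (f : X ⟶ P ⊗ Y) (g : Y ⟶ Z) (x : V χ X) :
    map χ g (kmap χ f x) = kmap χ (f ≫ P ◁ g) x := by
  rw [← kmap_unit, kmap_kmap, FM.bind_comp_unit]

theorem kmap_cross {X X' Y Y' : T} (f : X ⟶ P ⊗ X') (g : Y ⟶ P ⊗ Y') (x : V χ X) (y : V χ Y) :
    kmap χ ((f ⊗ₘ g) ≫ FM.ten P X' Y') (cross χ X Y x y) =
      cross χ X' Y' (kmap χ f x) (kmap χ g y) := by
  induction x using ind with
  | zero => simp only [map_zero, LinearMap.zero_apply]
  | add x x' hx hx' => simp only [map_add, LinearMap.add_apply, hx, hx']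
  | smul b i x =>
    induction y using ind with
    | zero => simp only [map_zero]
    | add y y' hy hy' => simp only [map_add, hy, hy']
    | smul c j y =>
      simp only [map_smul, LinearMap.smul_apply]
      rw [cross_mk, MP.cross_of (q := i + j) rfl, kmap_of, kmap_of, kmap_of, cross_mk,
        MP.cross_of (q := i + j) rfl]
      have h : crossG rfl x y ≫ FM.bind ((f ⊗ₘ g) ≫ FM.ten P X' Y') =
          crossG (q := i + j) rfl (x ≫ FM.bind f) (y ≫ FM.bind g) := by
        unfold crossG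
        rw [ext_comp, Category.assoc, Category.assoc, FM.bind_ten]
      rw [h]

/-- **The multiplication** `V χ (P ⊗ W) ⟶ V χ W`. -/
def mul (W : T) : V χ (P ⊗ W) →ₗ[B] V χ W := kmap χ (𝟙 (P ⊗ W))

theorem mul_of {W : T} (j : ℤ) (x : E.S j ⟶ P ⊗ (P ⊗ W)) :
    mul χ W (of χ _ j x) = of χ W j (x ≫ (α_ P P W).inv ≫ μ[P] ▷ W) := by
  rw [mul, kmap_of, ← free_act_eq]
  rfl

theorem mul_map {X W : T} (f : X ⟶ P ⊗ W) (x : V χ X) : mul χ W (map χ f x) = kmap χ f x := by
  rw [mul, kmap_map, Category.comp_id]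

/-- naturality -/
theorem map_mul {W W' : T} (f : W ⟶ W') (x : V χ (P ⊗ W)) :
    map χ f (mul χ W x) = mul χ W' (map χ (P ◁ f) x) := by
  rw [mul_map, mul, map_kmap, Category.id_comp]

theorem mul_unit {W : T} (x : V χ W) : mul χ W (map χ (FM.unit P W) x) = x := by
  rw [mul_map, ← Category.id_comp (FM.unit P W), kmap_unit, map_id]
  rfl

theorem mul_mul {W : T} (x : V χ (P ⊗ (P ⊗ W))) :
    mul χ W (mul χ (P ⊗ W) x) = mul χ W (map χ (ModStr.free P W).act x) := by
  have h : FM.bind (𝟙 (P ⊗ (P ⊗ W))) ≫ FM.bind (𝟙 (P ⊗ W)) =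
      P ◁ (ModStr.free P W).act ≫ FM.bind (𝟙 (P ⊗ W)) := by
    rw [FM.bind_bind, Category.id_comp, ← free_act_eq]
    rfl
  induction x using ind with
  | zero => simp only [map_zero]
  | add x x' hx hx' => simp only [map_add, hx, hx']
  | smul b i x =>
    simp only [map_smul]
    rw [mul, mul, kmap_of, kmap_of, map_of, kmap_of, Category.assoc, Category.assoc, h]

/-- the multiplication and products on the right -/
theorem mul_cross_right {W X : T} (x : V χ (P ⊗ W)) (z : V χ X) :
    mul χ (W ⊗ X) (map χ (α_ P W X).hom (cross χ _ X x z)) = cross χ W X (mul χ W x) z := by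
  have h := kmap_cross χ (𝟙 (P ⊗ W)) (𝟙 X ≫ FM.unit P X) x z
  rw [kmap_unit, map_id, Category.id_comp, id_tensorHom, FM.tensor_unit_ten] at h
  rw [mul_map, h]
  rfl

/-- The Hurewicz class. -/
def hur {Y : T} (j : ℤ) (y : E.S j ⟶ Y) : V χ Y := of χ Y j (y ≫ FM.unit P Y)

theorem hur_eq {Y : T} (j : ℤ) (y : E.S j ⟶ Y) : hur χ j y = map χ y (gen χ j) := by
  change _ = map χ y (of χ _ j (FM.unit P _))
  rw [map_of, ← FM.unit_naturality, hur]

theorem map_hur {Y Y' : T} (f : Y ⟶ Y') (j : ℤ) (y : E.S j ⟶ Y) :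
    map χ f (hur χ j y) = hur χ j (y ≫ f) := by
  rw [hur_eq, hur_eq, map_map]

theorem hur_add {Y : T} (j : ℤ) (y y' : E.S j ⟶ Y) :
    hur χ j (y + y') = hur χ j y + hur χ j y' := by
  rw [hur, hur, hur, Preadditive.add_comp, of, map_add, map_add]

theorem hur_zero {Y : T} (j : ℤ) : hur χ j (0 : E.S j ⟶ Y) = 0 := by
  rw [hur, zero_comp, of, map_zero, map_zero]

theorem mul_hur {W : T} (j : ℤ) (y : E.S j ⟶ P ⊗ W) : mul χ W (hur χ j y) = of χ W j y := by
  rw [mul, hur, kmap_of, Category.assoc, FM.unit_bind, Category.comp_id]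

theorem cross_hur {X Y : T} {i j k : ℤ} (h : i + j = k) (x : E.S i ⟶ X) (y : E.S j ⟶ Y) :
    cross χ X Y (hur χ i x) (hur χ j y) = hur χ k (E.ext h x y) := by
  rw [hur, hur, hur, cross_mk, MP.cross_of h]
  congr 2
  unfold crossG
  rw [ext_comp, Category.assoc, FM.unit_ten]

/-- the class of `γ ∈ π_{2*}(P ⊗ K)` in `V χ K` -/
def mkG (K : T) [MonObj K] : HRing E (P ⊗ K) →+ V χ K :=
  (mk χ K).comp (toMP E P K).toAddMonoidHom

theorem mkG_apply {K : T} [MonObj K] (g : HRing E (P ⊗ K)) :
    mkG χ K g = mk χ K (toMP E P K g) := rfl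

theorem mkG_of {K : T} [MonObj K] (j : ℤ) (x : E.S j ⟶ P ⊗ K) :
    mkG χ K (HRing.of E (P ⊗ K) j x) = of χ K j x := rfl

theorem mkG_inl_mul {K : T} [MonObj K] (z : HRing E P) (g : HRing E (P ⊗ K)) :
    mkG χ K (HRing.map (inlM P K) z * g) = χ z • mkG χ K g := by
  rw [mkG_apply, ← smul_toMP, mk_smul, mkG_apply]

theorem mkG_inr {K : T} [MonObj K] (j : ℤ) (x : E.S j ⟶ K) :
    mkG χ K (HRing.map (inrM P K) (HRing.of E K j x)) = hur χ j x := by
  rw [HRing.map_of]
  rfl

theorem mkG_mul {K : T} [MonObj K] (g g' : HRing E (P ⊗ K)) :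
    mkG χ K (g * g') = map χ μ[K] (cross χ K K (mkG χ K g) (mkG χ K g')) := by
  induction g using DirectSum.induction_on with
  | zero => simp only [zero_mul, map_zero, LinearMap.zero_apply]
  | add g₁ g₂ h h' => simp only [add_mul, map_add, LinearMap.add_apply, h, h']
  | of i g =>
    induction g' using DirectSum.induction_on with
    | zero => simp only [mul_zero, map_zero]
    | add g₁ g₂ h h' => simp only [mul_add, map_add, h, h']
    | of j g' =>
      change mkG χ K (HRing.of E _ i g * HRing.of E _ j g') =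
        map χ μ[K] (cross χ K K (of χ K i g) (of χ K j g'))
      rw [of_mul_of (p := i + j) rfl, mkG_of, cross_mk, MP.cross_of (q := i + j) rfl, map_of]
      congr 2
      unfold gmul crossG FM.ten
      change _ ≫ tensorμ P K P K ≫ (μ[P] ⊗ₘ μ[K]) = _
      rw [MonoidalCategory.tensorHom_def, Category.assoc, Category.assoc]

theorem mkG_one {K : T} [MonObj K] : mkG χ K 1 = map χ η[K] (one χ) := by
  rw [← map_one (HRing.map (E := E) (inrM P K)), ← of_one, mkG_inr, ← map_zero_inv_gen, map_map,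
    hur_eq]

/-- **The augmentation** `V χ P ⟶ B`. -/
def eps : V χ P →ₗ[B] B :=
  BC.lift (RingHom.id B) (((χ.comp (HRing.map (descM (𝟙 P) (𝟙 P)))).toAddMonoidHom).comp
    (toMP E P P).symm.toAddMonoidHom) fun z m => by
      obtain ⟨g, rfl⟩ := (toMP E P P).surjective m
      rw [smul_toMP]
      change χ (HRing.map (descM (𝟙 P) (𝟙 P)) (HRing.map (inlM P P) z * g)) =
        χ z * χ (HRing.map (descM (𝟙 P) (𝟙 P)) g)
      have h : (HRing.map (E := E) (descM (𝟙 P) (𝟙 P))).comp (HRing.map (inlM P P)) =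
          RingHom.id _ := HRing.ringHom_ext fun n x => by
        rw [RingHom.comp_apply, HRing.map_of, HRing.map_of, Category.assoc, inlM_descM,
          Category.comp_id, RingHom.id_apply]
      rw [_root_.map_mul, _root_.map_mul, ← RingHom.comp_apply (HRing.map _), h, RingHom.id_apply]

theorem eps_mkG (g : HRing E (P ⊗ P)) :
    eps χ (mkG χ P g) = χ (HRing.map (descM (𝟙 P) (𝟙 P)) g) := BC.lift_mk _ _ _ _

theorem eps_of (j : ℤ) (x : E.S j ⟶ P ⊗ P) :
    eps χ (of χ P j x) = χ (HRing.of E P j (x ≫ μ[P])) := by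
  rw [← mkG_of, eps_mkG, HRing.map_of, descM, id_tensorHom_id, Category.id_comp]

theorem eps_hur (j : ℤ) (x : E.S j ⟶ P) : eps χ (hur χ j x) = χ (HRing.of E P j x) := by
  rw [hur, eps_of, Category.assoc]
  change χ (HRing.of E P j (x ≫ inrM P P ≫ μ[P])) = _
  rw [inrM, Category.assoc, MonObj.one_mul, Iso.inv_hom_id, Category.comp_id]

theorem kmap_rho_inv (s : V χ P) : kmap χ (ρ_ P).inv s = eps χ s • one χ := by
  induction s using ind with
  | zero => simp only [map_zero, zero_smul]
  | add x x' hx hx' => simp only [map_add, add_smul, hx, hx']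
  | smul b i x =>
    rw [map_smul, map_smul, smul_eq_mul, mul_smul, kmap_of, eps_of, one, ← mk_smul, MP.one,
      MP.smul_of (k := i) (add_zero i), gsmul_eq_crossG, unitors_equal, crossG_one_right]
    have h : FM.bind (ρ_ P).inv = μ[P] ≫ (ρ_ P).inv := by
      rw [FM.bind, rightUnitor_inv_naturality, ← Category.assoc]
      congr 1
      monoidal
    rw [h, Category.assoc]

/-- `mul (s × z) = eps s • z` -/
theorem mul_cross {W : T} (s : V χ P) (z : V χ W) :
    mul χ W (cross χ P W s z) = eps χ s • z := by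
  have h := kmap_cross χ (ρ_ P).inv (𝟙 W ≫ FM.unit P W) s z
  rw [kmap_unit, map_id, kmap_rho_inv, map_smul, LinearMap.smul_apply] at h
  have h2 := congrArg (map χ (λ_ W).hom) h
  rw [map_smul, LinearMap.id_apply, one_cross, map_kmap] at h2
  rw [← h2, mul]
  congr 2
  rw [MonoidalCategory.tensorHom_def, Category.assoc, Category.assoc, Category.id_comp,
    FM.tensor_unit_ten_assoc]
  monoidal

/-! ### Modules -/

section rho

variable {Y Y' : T} (a : ModStr P Y)

/-- The action of `V χ P` on `V χ Y` for a module `Y`. -/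
def rho : V χ P →ₗ[B] V χ Y →ₗ[B] V χ Y := (cross χ P Y).compr₂ (map χ a.act)

theorem rho_apply (s : V χ P) (z : V χ Y) : rho χ a s z = map χ a.act (cross χ P Y s z) := rfl

theorem map_rho (a' : ModStr P Y') {f : Y ⟶ Y'} (hf : a.IsLinear a' f) (s : V χ P) (z : V χ Y) :
    map χ f (rho χ a s z) = rho χ a' s (map χ f z) := by
  have h := map_cross (χ := χ) (𝟙 P) f s z
  rw [map_id, id_tensorHom, LinearMap.id_apply] at h
  rw [rho_apply, rho_apply, ← h, map_map, map_map, hf]

theorem rho_rho (s s' : V χ P) (z : V χ Y) :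
    rho χ a s (rho χ a s' z) = rho χ a (map χ μ[P] (cross χ P P s s')) z := by
  have h := map_cross (χ := χ) (𝟙 P) a.act s (cross χ P Y s' z)
  rw [map_id, id_tensorHom, LinearMap.id_apply] at h
  have h' := map_cross (χ := χ) μ[P] (𝟙 Y) (cross χ P P s s') z
  rw [map_id, tensorHom_id, LinearMap.id_apply] at h'
  rw [rho_apply, rho_apply, rho_apply, ← h, ← h', ← cross_assoc, map_map, map_map, map_map,
    a.mul_act]

theorem rho_hur {i j k : ℤ} (h : i + j = k) (x : E.S i ⟶ P) (y : E.S j ⟶ Y) :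
    rho χ a (hur χ i x) (hur χ j y) = hur χ k (gsmul a h x y) := by
  rw [rho_apply, cross_hur χ h, map_hur]
  rfl

/-- The action of `π_{2*}(P ⊗ P)` on `V χ Y`. -/
def rhoG : HRing E (P ⊗ P) →+* Module.End B (V χ Y) where
  toFun g := rho χ a (mkG χ P g)
  map_zero' := by rw [map_zero, map_zero]
  map_add' g g' := by rw [map_add, map_add]
  map_one' := LinearMap.ext fun z => by
    have h := map_cross (χ := χ) η[P] (𝟙 Y) (one χ) z
    rw [map_id, tensorHom_id, LinearMap.id_apply] at h
    rw [mkG_one, rho_apply, ← h, map_map, a.one_act, one_cross]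
    rfl
  map_mul' g g' := LinearMap.ext fun z => by rw [Module.End.mul_apply, rho_rho, mkG_mul]

theorem rhoG_apply (g : HRing E (P ⊗ P)) (z : V χ Y) :
    rhoG χ a g z = rho χ a (mkG χ P g) z := rfl

theorem rhoG_inl (h : HRing E P) (z : V χ Y) :
    rhoG χ a (HRing.map (inlM P P) h) z = χ h • z := by
  rw [← _root_.mul_one (HRing.map (inlM P P) h), rhoG_apply, mkG_inl_mul, map_smul,
    LinearMap.smul_apply, ← rhoG_apply, map_one, Module.End.one_apply]

theorem rhoG_inr {i j k : ℤ} (h : i + j = k) (x : E.S i ⟶ P) (y : E.S j ⟶ Y) :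
    rhoG χ a (HRing.map (inrM P P) (HRing.of E P i x)) (hur χ j y) = hur χ k (gsmul a h x y) := by
  rw [rhoG_apply, mkG_inr, rho_hur]

/-- the action of a homogeneous element of the right factor is induced by a map -/
theorem rho_hur_left (i : ℤ) (x : E.S i ⟶ P) (z : V χ Y) :
    rho χ a (hur χ i x) z = map χ (x ▷ Y ≫ a.act) (cross χ _ Y (gen χ i) z) := by
  have h := map_cross (χ := χ) x (𝟙 Y) (gen χ i) z
  rw [map_id, tensorHom_id, LinearMap.id_apply] at h
  rw [rho_apply, hur_eq, ← h, map_map]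

end rho

end V

end general

variable {T : Type u} [Category.{v} T] [Preadditive T] [HasZeroObject T]
    [HasShift T ℤ] [∀ n : ℤ, (shiftFunctor T n).Additive] [Pretriangulated T] [IsTriangulated T]
    [MonoidalCategory T] [SymmetricCategory T] [TensorTriangulated T] [MonoidalClosed T]
    [HasCoproducts.{0} T] [HasProducts.{0} T] [StableCat T] {D : MUData T}
  {Fc : SpaceFunctor T} {e : Fc.S.obj CCF ≅ (stdEven T).L}
  {B B' : Type*} [CommRing B] [CommRing B'] (H : MUUniv e D)

/-! ### Spanning -/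

include H in
/-- `MP (R ⊗ R) W` is spanned by the `g • inr m` -/
theorem ind_inr {W : T} {motive : MP (stdEven T) (D.R ⊗ D.R) W → Prop}
    (x : MP (stdEven T) (D.R ⊗ D.R) W) (zero : motive 0)
    (smul : ∀ (g : HRing (stdEven T) (D.R ⊗ D.R)) (m : MP (stdEven T) D.R W),
      motive (g • pR D W m))
    (add : ∀ x y, motive x → motive y → motive (x + y)) : motive x := by
  let s : D.R ⊗ D.R ⟶ D.R ⊗ D.R := descM (inrM D.R D.R) (inlM D.R D.R)
  have h1 : inlM D.R D.R ≫ s = inrM D.R D.R := inlM_descM _ _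
  have h2 : inrM D.R D.R ≫ s = inlM D.R D.R := inrM_descM _ _
  have h3 : s ≫ s = 𝟙 _ := hom_ext_tensor
    (by rw [← Category.assoc, h1, h2, Category.comp_id])
    (by rw [← Category.assoc, h2, h1, Category.comp_id])
  have h4 : x = MP.push (stdEven T) s W (MP.push (stdEven T) s W x) := by
    rw [MP.push_push, h3, MP.push_id]
  rw [h4]
  refine ind_inl H (𝟙 D.R) (motive := fun y => motive (MP.push (stdEven T) s W y)) _ ?_ ?_ ?_
  · rw [map_zero]
    exact zero
  · intro g m
    rw [MP.push_smul, MP.push_push, h1]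
    exact smul _ _
  · intro x y hx hy
    rw [map_add]
    exact add _ _ hx hy

theorem smul_inr_act {Y : T} (a : ModStr D.R Y) :
    (D.R ⊗ D.R) ◁ (inrM D.R D.R ▷ Y) ≫ (ModStr.free (D.R ⊗ D.R) Y).act ≫ (α_ _ _ _).hom ≫
      D.R ◁ a.act = (D.R ⊗ D.R) ◁ (a.act ≫ FM.unit D.R Y) ≫ FM.ten D.R D.R Y ≫ D.R ◁ a.act := by
  have h1 : (D.R ⊗ D.R) ◁ inrM D.R D.R ≫ μ[D.R ⊗ D.R] = (α_ _ _ _).hom ≫ D.R ◁ μ[D.R] := by
    have h := FM.tensor_unit_ten (R := D.R) D.R D.R
    change (D.R ⊗ D.R) ◁ FM.unit D.R D.R ≫ tensorμ _ _ _ _ ≫ (μ[D.R] ⊗ₘ μ[D.R]) = _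
    rw [← h, FM.ten, MonoidalCategory.tensorHom_def, Category.assoc, Category.assoc]
  rw [MonoidalCategory.whiskerLeft_comp, Category.assoc, FM.tensor_unit_ten_assoc,
    associator_naturality_right_assoc, ← MonoidalCategory.whiskerLeft_comp]
  change _ ≫ ((α_ _ _ _).inv ≫ μ[D.R ⊗ D.R] ▷ Y) ≫ _ = _
  rw [Category.assoc, associator_inv_naturality_middle_assoc, ← comp_whiskerRight_assoc, h1,
    comp_whiskerRight, Category.assoc, associator_naturality_middle_assoc,
    ← MonoidalCategory.whiskerLeft_comp, a.mul_act, MonoidalCategory.whiskerLeft_comp]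
  monoidal

include H in
/-- **`V χ Y` is spanned by the classes `rhoG γ (hur y)`.** -/
theorem ind_mod {χ : HRing (stdEven T) D.R →+* B} {Y : T} (a : ModStr D.R Y)
    {motive : V χ Y → Prop} (x : V χ Y) (zero : motive 0)
    (smul : ∀ (b : B) (g : HRing (stdEven T) (D.R ⊗ D.R)) (j : ℤ) (y : (stdEven T).S j ⟶ Y),
      motive (b • V.rhoG χ a g (V.hur χ j y)))
    (add : ∀ x y, motive x → motive y → motive (x + y)) : motive x := by
  let A : MP (stdEven T) (D.R ⊗ D.R) Y →+ V χ Y := MP.lift fun j =>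
    { toFun := fun x => V.of χ Y j (x ≫ (α_ _ _ _).hom ≫ D.R ◁ a.act)
      map_zero' := by rw [zero_comp, V.of, map_zero, map_zero]
      map_add' := fun x y => by rw [Preadditive.add_comp, V.of, map_add, map_add] }
  have hA : ∀ j x, A (MP.of (stdEven T) (D.R ⊗ D.R) Y j x) =
      V.of χ Y j (x ≫ (α_ _ _ _).hom ≫ D.R ◁ a.act) := fun j x => MP.lift_of _ j x
  have key : ∀ (b : B) (y : MP (stdEven T) (D.R ⊗ D.R) Y), motive (b • A y) := by
    intro b y
    refine ind_inr H (motive := fun y => motive (b • A y)) y ?_ ?_ ?_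
    · rw [map_zero, smul_zero]
      exact zero
    · intro g m
      induction m using MP.ind with
      | zero => rw [map_zero, smul_zero, map_zero, smul_zero]; exact zero
      | add m m' h h' => rw [map_add, smul_add, map_add, smul_add]; exact add _ _ h h'
      | of j m =>
        have h1 : A (g • pR D Y (MP.of (stdEven T) D.R Y j m)) =
            V.rhoG χ a g (V.hur χ j (m ≫ a.act)) := by
          induction g using DirectSum.induction_on with
          | zero => simp only [zero_smul, map_zero, LinearMap.zero_apply]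
          | add g g' h h' => simp only [add_smul, map_add, LinearMap.add_apply, h, h']
          | of i g =>
            change A (HRing.of _ _ i g • pR D Y (MP.of (stdEven T) D.R Y j m)) =
              V.rho χ a (V.of χ D.R i g) _
            rw [MP.push_of, MP.smul_of (k := i + j) rfl, hA, V.rho_apply, V.hur, V.cross_mk,
              MP.cross_of (q := i + j) rfl, V.map_of]
            refine congrArg (V.of χ Y (i + j)) ?_
            unfold gsmul crossG
            rw [Category.assoc m, ext_comp_right, ext_comp_right _ g m, Category.assoc,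
              Category.assoc, Category.assoc, Category.assoc, smul_inr_act]
        rw [h1]
        exact smul _ _ _ _
    · intro x y hx hy
      rw [map_add, smul_add]
      exact add _ _ hx hy
  induction x using V.ind with
  | zero => exact zero
  | add x y hx hy => exact add _ _ hx hy
  | smul b j x =>
    have h := key b (MP.of (stdEven T) (D.R ⊗ D.R) Y j (x ≫ inlM D.R D.R ▷ Y))
    have h2 : inlM D.R D.R ▷ Y ≫ (α_ _ _ _).hom ≫ D.R ◁ a.act = 𝟙 _ := by
      rw [inlM, comp_whiskerRight, Category.assoc, associator_naturality_middle_assoc,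
        ← MonoidalCategory.whiskerLeft_comp, a.one_act]
      monoidal
    rwa [hA, Category.assoc, h2, Category.comp_id] at h

/-! ### The action and the augmentation -/

section act

variable (hB : LawExt D B') {χ : HRing (stdEven T) D.R →+* B} {χ' : HRing (stdEven T) D.R →+* B'}
  (φ : B →+* B') (ga : InvSeries B') (h : ga • (D.law.map χ).map φ = D.law.map χ')

theorem act_hur {Y : T} (j : ℤ) (y : (stdEven T).S j ⟶ Y) :
    act H hB φ ga h Y (V.hur χ j y) = ((ga.lead ^ j : B'ˣ) : B') • V.hur χ' j y := by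
  rw [V.hur_eq, ← map_act, act_gen, map_smul, ← V.hur_eq]

theorem act_rho {Y : T} (a : ModStr D.R Y) (s : V χ D.R) (z : V χ Y) :
    act H hB φ ga h Y (V.rho χ a s z) =
      V.rho χ' a (act H hB φ ga h _ s) (act H hB φ ga h Y z) := by
  rw [V.rho_apply, V.rho_apply, ← map_act, act_cross]

variable (χ) in
/-- The point of `π_{2*}(R ⊗ R)` of the isomorphism `ga`. -/
def thG : HRing (stdEven T) (D.R ⊗ D.R) →+* B' :=
  clsG H (φ.comp χ) ((InvSeries.lin ga.lead)⁻¹ * ga)

theorem lin_inv_mul_eq : (InvSeries.lin ga.lead)⁻¹ * ga =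
    (InvSeries.lin ga.lead)⁻¹ * ga.str * InvSeries.lin ga.lead := by
  rw [_root_.mul_assoc, str_mul_lin]

theorem lin_inv_mul_mem : (InvSeries.lin ga.lead)⁻¹ * ga ∈ strict B' := by
  have h : ((((InvSeries.lin ga.lead)⁻¹ * ga).lead : B'ˣ) : B') = 1 := by
    rw [InvSeries.lead_mul, InvSeries.lead_inv, InvSeries.lead_lin, inv_mul_cancel, Units.val_one]
  exact h

theorem thG_ηL : (thG H χ φ ga).comp (ηL D) = φ.comp χ := clsG_ηL H _ _

theorem thG_uSer : InvSeries.map (thG H χ φ ga) (uSer D) = (InvSeries.lin ga.lead)⁻¹ * ga :=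
  clsG_uSer H _ (lin_inv_mul_mem ga)

include hB h in
theorem thG_ηR : (thG H χ φ ga).comp (ηR D) = scl ga.lead χ' := by
  apply hB
  rw [law_ηR, thG_uSer, thG_ηL, law_scl, ← h, mul_smul, Law.map_map]

/-- **`eps ∘ act ∘ mkG = thG`.** -/
theorem eps_act (g : HRing (stdEven T) (D.R ⊗ D.R)) :
    V.eps χ' (act H hB φ ga h _ (V.mkG χ D.R g)) = thG H χ φ ga g := by
  let θ₂ := clsG H χ' ga.str⁻¹
  have k₀ : θ₂.comp (ηL D) = χ' := clsG_ηL H _ _
  have k₁ : InvSeries.map θ₂ (uSer D) = ga.str⁻¹ := clsG_uSer H _ (inv_mem ga.str_mem)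
  let Θ : HRing (stdEven T) ((D.R ⊗ D.R) ⊗ D.R) →+* B' := cls H (inrM D.R D.R) θ₂ ga.str
  have f01 : Θ.comp (HRing.map (inlM (D.R ⊗ D.R) D.R)) = θ₂ := cls_inl H _ _ _
  have s12 : InvSeries.map Θ (H80.ser (inrM D.R D.R ≫ inlM (D.R ⊗ D.R) D.R)
      (inrM (D.R ⊗ D.R) D.R)) = ga.str := cls_ser H _ _ ga.str_mem
  have f02 : Θ.comp (HRing.map (inlM D.R D.R ▷ D.R)) =
      χ'.comp (HRing.map (descM (𝟙 D.R) (𝟙 D.R))) := by
    refine ringHom_extG H ?_ ?_
    · rw [RingHom.comp_assoc, ← HRing.map_comp, HRing_map_congr (inlM_whiskerRight _),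
        HRing.map_comp, ← RingHom.comp_assoc, f01, k₀, RingHom.comp_assoc, ← HRing.map_comp,
        HRing_map_congr (inlM_descM _ _), HRing.map_id, RingHom.comp_id]
    · rw [← InvSeries.map_map, map_uSer, ser_congr (inlM_whiskerRight _) (inrM_whiskerRight _),
        ← P221.H246.ser_trans _ (inrM D.R D.R ≫ inlM (D.R ⊗ D.R) D.R), map_mul, s12,
        ← map_uSer, InvSeries.map_map, f01, k₁, mul_inv_cancel, ← InvSeries.map_map, map_uSer,
        ser_congr (inlM_descM _ _) (inrM_descM _ _), H80.ser_self, map_one]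
  have f12 : scl ga.lead (Θ.comp (HRing.map (inrM D.R D.R ▷ D.R))) = thG H χ φ ga := by
    refine ringHom_extG H ?_ ?_
    · rw [thG_ηL, scl_comp_map, RingHom.comp_assoc, ← HRing.map_comp,
        HRing_map_congr (inlM_whiskerRight _), HRing.map_comp, ← RingHom.comp_assoc, f01]
      exact scl_clsG H hB φ ga h
    · rw [thG_uSer, uSer, ser_scl, ← uSer, ← InvSeries.map_map, map_uSer,
        ser_congr (inlM_whiskerRight _) (inrM_whiskerRight _), s12, ← lin_inv_mul_eq]
  have hE : (V.eps χ').toAddMonoidHom.comp (Th H θ₂ χ' D.R) =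
      Θ.toAddMonoidHom.comp (toMP (stdEven T) (D.R ⊗ D.R) D.R).symm.toAddMonoidHom := by
    refine hom_ext_inl H (𝟙 D.R) fun z m => ?_
    obtain ⟨g, rfl⟩ := (toMP (stdEven T) D.R D.R).surjective m
    rw [AddMonoidHom.comp_apply, Th_smul_pL H k₀, push_toMP, smul_toMP]
    change V.eps χ' (θ₂ z • V.mkG χ' D.R g) =
      Θ (HRing.map (inlM (D.R ⊗ D.R) D.R) z * HRing.map (inlM D.R D.R ▷ D.R) g)
    rw [map_smul, V.eps_mkG, map_mul, ← f01, ← RingHom.comp_apply Θ (HRing.map (_ ▷ _)), f02]
    rfl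
  induction g using DirectSum.induction_on with
  | zero => simp only [map_zero]
  | add g g' k k' => simp only [map_add, k, k']
  | of j x =>
    change V.eps χ' (act H hB φ ga h _ (V.of χ D.R j x)) = thG H χ φ ga (HRing.of _ _ j x)
    have h1 := DFunLike.congr_fun hE (pR D D.R (MP.of (stdEven T) D.R D.R j x))
    rw [act_of, map_smul, ← f12, scl_of, smul_eq_mul]
    refine congrArg (_ * ·) (h1.trans ?_)
    rw [MP.push_of, RingHom.comp_apply, HRing.map_of]
    rfl

/-- the form for modules: `mul (act (γ × z)) = thG γ • act z` -/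
theorem mul_act_cross {W : T} (g : HRing (stdEven T) (D.R ⊗ D.R)) (z : V χ W) :
    V.mul χ' W (act H hB φ ga h _ (V.cross χ D.R W (V.mkG χ D.R g) z)) =
      thG H χ φ ga g • act H hB φ ga h W z := by
  rw [act_cross, V.mul_cross, eps_act]

end act

end Vale.Agent.P221X.VT
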