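import Vale.Agent.P221X.VT.Act
import Vale.Agent.P251.S.Tel
import Mathlib.Algebra.DirectSum.Module

/-!
# P221, block VT: sums and periodicity

* `V.coprod`, `V.coprodR` : `V χ` sends coproducts to direct sums (also after `- ⊗ N`);
* `V.mapIso`; `V.per χ j W : V χ W ≃ₗ V χ (S^{2j} ⊗ W)`, `x ↦ gen j × x`; `act_per`.
-/

open CategoryTheory MonoidalCategory Limits Pretriangulated MonObj
open scoped DirectSum

set_option linter.unusedSectionVars false

universe v u

noncomputable section

namespace Vale.Agent.P221X.VT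

open Vale.Agent.P251 Vale.Agent.P251.T Vale.Agent.P251.M Vale.Agent.P251.M.EvenSpheres
  Vale.Agent.P251.S Vale.Agent.P251.F Vale.Agent.P251.I Vale.Agent.P251.Z Vale.Agent.P251.X
  Vale.Agent.P257

section per

variable {T : Type u} [Category.{v} T] [Preadditive T] [MonoidalCategory T]
  [MonoidalPreadditive T] [SymmetricCategory T] {E : EvenSpheres T} {P : T} [MonObj P]
  [IsCommMonObj P] {B : Type*} [CommRing B] (χ : HRing E P →+* B)

/-- the equivalence of an isomorphism -/
def V.mapIso {X Y : T} (f : X ≅ Y) : V χ X ≃ₗ[B] V χ Y :=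
  { V.map χ f.hom with
    invFun := V.map χ f.inv
    left_inv := fun x => by
      change V.map χ f.inv (V.map χ f.hom x) = x
      rw [V.map_map, f.hom_inv_id, V.map_id, LinearMap.id_apply]
    right_inv := fun x => by
      change V.map χ f.hom (V.map χ f.inv x) = x
      rw [V.map_map, f.inv_hom_id, V.map_id, LinearMap.id_apply] }

theorem V.mapIso_apply {X Y : T} (f : X ≅ Y) (x : V χ X) : V.mapIso χ f x = V.map χ f.hom x := rfl

theorem V.mapIso_symm_apply {X Y : T} (f : X ≅ Y) (x : V χ Y) :
    (V.mapIso χ f).symm x = V.map χ f.inv x := rfl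

theorem V.map_bijective {X Y : T} (f : X ⟶ Y) [IsIso f] : Function.Bijective (V.map χ f) :=
  (V.mapIso χ (asIso f)).bijective

theorem V.gen_gen_cross {i j : ℤ} (h : i + j = 0) {W : T} (x : V χ W) :
    V.map χ ((α_ (E.S i) (E.S j) W).inv ≫ ((E.mu i j 0 h).hom ≫ E.zero.inv) ▷ W ≫ (λ_ W).hom)
      (V.cross χ _ _ (V.gen χ i) (V.cross χ _ W (V.gen χ j) x)) = x := by
  rw [← V.cross_assoc, V.map_map, Iso.hom_inv_id_assoc, ← V.map_map, ← tensorHom_id, V.map_cross,
    ← V.map_map, V.map_mu_gen, V.map_zero_inv_gen, V.map_id, LinearMap.id_apply, V.one_cross]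

theorem V.gen_cross_injective (j : ℤ) (W : T) :
    Function.Injective (V.cross χ (E.S j) W (V.gen χ j)) := fun x y h => by
  rw [← V.gen_gen_cross χ (neg_add_cancel j) x, h, V.gen_gen_cross]

theorem V.gen_cross_bijective (j : ℤ) (W : T) :
    Function.Bijective (V.cross χ (E.S j) W (V.gen χ j)) := by
  refine ⟨V.gen_cross_injective χ j W, fun y => ?_⟩
  let f : E.S (-j) ⊗ (E.S j ⊗ W) ⟶ W := (α_ (E.S (-j)) (E.S j) W).inv ≫
    ((E.mu (-j) j 0 (neg_add_cancel j)).hom ≫ E.zero.inv) ▷ W ≫ (λ_ W).hom
  refine ⟨V.map χ f (V.cross χ _ _ (V.gen χ (-j)) y), ?_⟩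
  apply V.gen_cross_injective χ (-j)
  apply (V.map_bijective χ f).1
  exact V.gen_gen_cross χ (neg_add_cancel j) _

/-- **Periodicity.** -/
def V.per (j : ℤ) (W : T) : V χ W ≃ₗ[B] V χ (E.S j ⊗ W) :=
  LinearEquiv.ofBijective (V.cross χ (E.S j) W (V.gen χ j)) (V.gen_cross_bijective χ j W)

theorem V.per_apply (j : ℤ) {W : T} (x : V χ W) :
    V.per χ j W x = V.cross χ (E.S j) W (V.gen χ j) x := rfl

theorem V.map_per (j : ℤ) {W W' : T} (f : W ⟶ W') (x : V χ W) :
    V.map χ (E.S j ◁ f) (V.per χ j W x) = V.per χ j W' (V.map χ f x) := by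
  rw [V.per_apply, V.per_apply, ← id_tensorHom, V.map_cross, V.map_id, LinearMap.id_apply]

end per

variable {T : Type u} [Category.{v} T] [Preadditive T] [HasZeroObject T]
    [HasShift T ℤ] [∀ n : ℤ, (shiftFunctor T n).Additive] [Pretriangulated T] [IsTriangulated T]
    [MonoidalCategory T] [SymmetricCategory T] [TensorTriangulated T] [MonoidalClosed T]
    [HasCoproducts.{0} T] [HasProducts.{0} T] [StableCat T]
  {B B' : Type*} [CommRing B] [CommRing B']

section sum

variable {P : T} [MonObj P] [IsCommMonObj P] (χ : HRing (stdEven T) P →+* B)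

theorem V.coprod {I : Type} [DecidableEq I] (X : I → T) :
    Function.Bijective (DirectSum.toModule B I (V χ (∐ X)) fun i => V.map χ (Sigma.ι X i)) := by
  constructor
  · rw [injective_iff_map_eq_zero]
    intro x hx
    have h1 : ∀ i, (V.map χ (sproj X i)).comp
        (DirectSum.toModule B I (V χ (∐ X)) fun i => V.map χ (Sigma.ι X i)) =
        DirectSum.component B I (fun i => V χ (X i)) i := by
      intro i
      apply DirectSum.linearMap_ext
      intro j
      apply LinearMap.ext
      intro y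
      simp only [LinearMap.comp_apply, DirectSum.toModule_lof]
      rw [V.map_map]
      by_cases h : j = i
      · subst h
        rw [ι_sproj_self, V.map_id, DirectSum.component.lof_self]
        rfl
      · rw [ι_sproj_ne X h, V.map_zero', LinearMap.zero_apply, DirectSum.component.of, dif_neg h]
    refine DFinsupp.ext fun i => ?_
    have h2 := DFunLike.congr_fun (h1 i) x
    rw [LinearMap.comp_apply, hx, map_zero] at h2
    exact h2.symm
  · intro y
    induction y using V.ind with
    | zero => exact ⟨0, map_zero _⟩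
    | add x y hx hy =>
      obtain ⟨x', hx⟩ := hx
      obtain ⟨y', hy⟩ := hy
      exact ⟨x' + y', by rw [map_add, hx, hy]⟩
    | smul b j f =>
      obtain ⟨s, g, hg⟩ := compact_sumL P X (isSphere_std j) f
      refine ⟨b • ∑ i ∈ s, DirectSum.lof B I (fun i => V χ (X i)) i (V.of χ (X i) j (g i)), ?_⟩
      rw [map_smul, map_sum, hg, V.of, map_sum, map_sum]
      congr 1
      refine Finset.sum_congr rfl fun i _ => ?_
      rw [DirectSum.toModule_lof, V.map_of]

theorem V.coprodR {I : Type} [DecidableEq I] (X : I → T) (N : T) :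
    Function.Bijective
      (DirectSum.toModule B I (V χ ((∐ X) ⊗ N)) fun i => V.map χ (Sigma.ι X i ▷ N)) := by
  have h0 : IsIso (Sigma.desc (Sigma.ι X)) := by
    have : Sigma.desc (Sigma.ι X) = 𝟙 _ := Sigma.hom_ext _ _ fun j => by
      rw [Sigma.ι_desc, Category.comp_id]
    rw [this]
    infer_instance
  have h1 := isIso_desc_whiskerRight _ h0 N
  have h2 : (DirectSum.toModule B I (V χ ((∐ X) ⊗ N)) fun i => V.map χ (Sigma.ι X i ▷ N)) =
      (V.map χ (Sigma.desc fun j => Sigma.ι X j ▷ N)).comp
        (DirectSum.toModule B I (V χ (∐ fun i => X i ⊗ N))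
          fun i => V.map χ (Sigma.ι (fun i => X i ⊗ N) i)) := by
    apply DirectSum.linearMap_ext
    intro j
    apply LinearMap.ext
    intro y
    simp only [LinearMap.comp_apply, DirectSum.toModule_lof]
    rw [V.map_map, Sigma.ι_desc]
  rw [h2, LinearMap.coe_comp]
  exact (V.map_bijective χ _).comp (V.coprod χ _)

end sum

variable {D : MUData T} {Fc : SpaceFunctor T} {e : Fc.S.obj CCF ≅ (stdEven T).L} (H : MUUniv e D)

theorem act_per (hB : LawExt D B') {χ : HRing (stdEven T) D.R →+* B}
    {χ' : HRing (stdEven T) D.R →+* B'} (φ : B →+* B') (ga : InvSeries B')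
    (h : ga • (D.law.map χ).map φ = D.law.map χ') (j : ℤ) {W : T} (x : V χ W) :
    act H hB φ ga h _ (V.per χ j W x) =
      ((ga.lead ^ j : B'ˣ) : B') • V.per χ' j W (act H hB φ ga h W x) := by
  rw [V.per_apply, V.per_apply, act_cross, act_gen, map_smul, LinearMap.smul_apply]

end Vale.Agent.P221X.VT
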