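import Vale.Agent.P221X.VT.Act

/-!
# P221, block VT: the expansion of `act`, continuity

* `exists_expand` : `inr m = ∑ b^a • inl (x a)` with `x 0 = m`; `act_of_expand`;
* `exists_act_eq` : `act (1 ⊗ m) = 1 ⊗ m` if the series is `1` in low degrees modulo an ideal which
  kills finitely many elements;
* `exists_act_eq_self` : the form for `u`-power torsion modules.
-/

open CategoryTheory MonoidalCategory Limits Pretriangulated MonObj

set_option linter.unusedSectionVars false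

universe v u

noncomputable section

namespace Vale.Agent.P221X.VT

open Vale.Agent.P251 Vale.Agent.P251.T Vale.Agent.P251.M Vale.Agent.P251.M.EvenSpheres
  Vale.Agent.P251.S Vale.Agent.P251.F Vale.Agent.P251.I Vale.Agent.P251.Z Vale.Agent.P251.X
  Vale.Agent.P257

section series

variable {B : Type*} [CommRing B]

theorem inv_c_eq (f : InvSeries B) (n : ℕ) (h : ∀ i ≤ n, f.c i = (1 : InvSeries B).c i) :
    ∀ i ≤ n, f⁻¹.c i = (1 : InvSeries B).c i := by
  have h1 : (PowerSeries.X : PowerSeries B) ^ (n + 2) ∣ f.val - PowerSeries.X := by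
    rw [PowerSeries.X_pow_dvd_iff]
    rintro (_ | m) hm
    · rw [map_sub, PowerSeries.coeff_zero_eq_constantCoeff_apply, f.cc, PowerSeries.coeff_zero_X,
        sub_zero]
    · rw [map_sub, sub_eq_zero]
      exact h m (by omega)
  obtain ⟨r, hr⟩ := h1
  have h2 : f.val = PowerSeries.X + PowerSeries.X ^ (n + 2) * r := by rw [← hr, add_sub_cancel]
  have h3 := f.inv_subst_val
  rw [h2, PowerSeries.subst_add f⁻¹.hs, PowerSeries.subst_mul f⁻¹.hs, PowerSeries.subst_pow f⁻¹.hs,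
    PowerSeries.subst_X f⁻¹.hs] at h3
  obtain ⟨s, hs⟩ := PowerSeries.X_dvd_iff.2 f⁻¹.cc
  have h4 : (PowerSeries.X : PowerSeries B) ^ (n + 2) ∣ f⁻¹.val - PowerSeries.X := by
    have h5 : f⁻¹.val - PowerSeries.X =
        -(f⁻¹.val ^ (n + 2) * (PowerSeries.subst f⁻¹.val r : PowerSeries B)) := by
      rw [eq_neg_iff_add_eq_zero, sub_add_eq_add_sub, sub_eq_zero]
      exact h3
    rw [h5, dvd_neg]
    exact Dvd.dvd.mul_right (pow_dvd_pow_of_dvd ⟨s, hs⟩ _) _
  intro i hi
  have h6 := PowerSeries.X_pow_dvd_iff.1 h4 (i + 1) (by omega)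
  rw [map_sub, sub_eq_zero] at h6
  exact h6

theorem str_inv_c_mem (f : InvSeries B) (n : ℕ) (I : Ideal B)
    (h : ∀ i ≤ n, f.c i - (1 : InvSeries B).c i ∈ I) {i : ℕ} (hi : i + 1 ≤ n) :
    f.str⁻¹.c (i + 1) ∈ I := by
  have h1 : ∀ i ≤ n, (InvSeries.map (Ideal.Quotient.mk I) f).c i = (1 : InvSeries _).c i := by
    intro i hi
    rw [← map_one (InvSeries.map (Ideal.Quotient.mk I)), InvSeries.c_map, InvSeries.c_map,
      Ideal.Quotient.eq]
    exact h i hi
  have h2 : (InvSeries.map (Ideal.Quotient.mk I) f).str = InvSeries.map (Ideal.Quotient.mk I) f := by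
    rw [InvSeries.str, InvSeries.lead_eq_one (by
      rw [mem_strict, h1 0 (Nat.zero_le n), InvSeries.c_zero_one]), map_one, inv_one, _root_.mul_one]
  rw [← Ideal.Quotient.eq_zero_iff_mem, ← InvSeries.c_map, map_inv, InvSeries.map_str, h2,
    inv_c_eq _ n h1 _ hi, InvSeries.c_one_succ]

theorem lead_zpow_sub_mem (f : InvSeries B) (I : Ideal B)
    (h : f.c 0 - (1 : InvSeries B).c 0 ∈ I) (j : ℤ) : ((f.lead ^ j : Bˣ) : B) - 1 ∈ I := by
  have h1 : Units.map (Ideal.Quotient.mk I : B →* B ⧸ I) f.lead = 1 := by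
    ext
    rw [InvSeries.c_zero_one] at h
    exact (Ideal.Quotient.eq.2 h).trans (map_one _)
  have h2 : Ideal.Quotient.mk I ((f.lead ^ j : Bˣ) : B) = 1 := by
    have h3 := congrArg (fun x : (B ⧸ I)ˣ => ((x ^ j : (B ⧸ I)ˣ) : B ⧸ I)) h1
    simp only [← map_zpow, one_zpow] at h3
    exact h3
  rw [← Ideal.Quotient.eq, h2, map_one]

end series

variable {T : Type u} [Category.{v} T] [Preadditive T] [HasZeroObject T]
    [HasShift T ℤ] [∀ n : ℤ, (shiftFunctor T n).Additive] [Pretriangulated T] [IsTriangulated T]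
    [MonoidalCategory T] [SymmetricCategory T] [TensorTriangulated T] [MonoidalClosed T]
    [HasCoproducts.{0} T] [HasProducts.{0} T] [StableCat T] {D : MUData T}
  {Fc : SpaceFunctor T} {e : Fc.S.obj CCF ≅ (stdEven T).L}
  {B B' : Type*} [CommRing B] [CommRing B'] (H : MUUniv e D)

theorem map_bMon (θ : HRing (stdEven T) (D.R ⊗ D.R) →+* B) (a : ℕ →₀ ℕ) :
    θ (bMon D (𝟙 D.R) a) = a.prod fun i k => (InvSeries.map θ (uSer D)).c (i + 1) ^ k := by
  unfold bMon
  rw [map_finsuppProd]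
  refine Finsupp.prod_congr fun i _ => ?_
  rw [map_pow, InvSeries.c_map, uSer_c]

theorem prod_c_one (a : ℕ →₀ ℕ) (ha : a ≠ 0) :
    (a.prod fun i k => (1 : InvSeries B).c (i + 1) ^ k) = 0 := by
  obtain ⟨i, hi⟩ := Finsupp.support_nonempty_iff.2 ha
  refine Finset.prod_eq_zero hi ?_
  change (1 : InvSeries B).c (i + 1) ^ a i = 0
  rw [InvSeries.c_one_succ, zero_pow (Finsupp.mem_support_iff.1 hi)]

include H in
/-- the expansion of the right unit -/
theorem exists_expand {W : T} (m : MP (stdEven T) D.R W) :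
    ∃ x : (ℕ →₀ ℕ) →₀ MP (stdEven T) D.R W,
      pR D W m = (x.sum fun a y => bMon D (𝟙 D.R) a • pL D W y) ∧ x 0 = m := by
  classical
  obtain ⟨x, hx⟩ := (bij_MP H (𝟙 D.R) W).2 (pR D W m)
  refine ⟨x, hx.symm, ?_⟩
  have h1 := congrArg (MP.push (stdEven T) (descM (𝟙 D.R) (𝟙 D.R)) W) hx
  have h2 : InvSeries.map (HRing.map (E := stdEven T) (descM (𝟙 D.R) (𝟙 D.R))) (uSer D) = 1 := by
    rw [map_uSer, ser_congr (inlM_descM _ _) (inrM_descM _ _), H80.ser_self]
  dsimp only at h1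
  rw [MP.push_push, inrM_descM, MP.push_id, Finsupp.sum, map_sum,
    Finset.sum_eq_single 0 (fun a _ ha => by
      rw [MP.push_smul, map_bMon, h2, prod_c_one a ha, zero_smul])
      (fun h0 => by rw [Finsupp.notMem_support_iff.1 h0, map_zero, smul_zero, map_zero]),
    MP.push_smul, MP.push_push, inlM_descM, MP.push_id, map_bMon, Finsupp.prod_zero_index,
    one_smul] at h1
  exact h1

variable (hB : LawExt D B') {χ : HRing (stdEven T) D.R →+* B} {χ' : HRing (stdEven T) D.R →+* B'}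

theorem act_of_expand (φ : B →+* B') (ga : InvSeries B')
    (h : ga • (D.law.map χ).map φ = D.law.map χ') {W : T} (j : ℤ)
    (y : (stdEven T).S j ⟶ D.R ⊗ W) (x : (ℕ →₀ ℕ) →₀ MP (stdEven T) D.R W)
    (hx : pR D W (MP.of (stdEven T) D.R W j y) =
      x.sum fun a y => bMon D (𝟙 D.R) a • pL D W y) :
    act H hB φ ga h W (V.of χ W j y) = ((ga.lead ^ j : B'ˣ) : B') •
      x.sum fun a y => (a.prod fun i k => ga.str⁻¹.c (i + 1) ^ k) • V.mk χ' W y := by
  rw [act_of, hx, Finsupp.sum, Finsupp.sum, map_sum]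
  congr 1
  refine Finset.sum_congr rfl fun a _ => ?_
  rw [Th_smul_pL H (clsG_ηL H _ _), map_bMon, clsG_uSer H _ (inv_mem ga.str_mem)]

/-- **Continuity** on generators. -/
theorem exists_act_eq {W : T} (j : ℤ) (y : (stdEven T).S j ⟶ D.R ⊗ W) :
    ∃ (n : ℕ) (t : Finset (MP (stdEven T) D.R W)), ∀ (φ : B →+* B') (ga : InvSeries B')
      (h : ga • (D.law.map χ).map φ = D.law.map χ') (I : Ideal B'),
      (∀ i ≤ n, ga.c i - (1 : InvSeries B').c i ∈ I) →
      (∀ c ∈ I, ∀ z ∈ t, c • V.mk χ' W z = 0) →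
      act H hB φ ga h W (V.of χ W j y) = V.of χ' W j y := by
  classical
  obtain ⟨x, hx, h0⟩ := exists_expand H (MP.of (stdEven T) D.R W j y)
  refine ⟨(x.support.sup fun a => a.support.sup id) + 1, (insert 0 x.support).image x,
    fun φ ga h I h1 h2 => ?_⟩
  have h3 : (x.sum fun a y => (a.prod fun i k => ga.str⁻¹.c (i + 1) ^ k) • V.mk χ' W y) =
      V.of χ' W j y := by
    rw [Finsupp.sum, Finset.sum_eq_single 0 (fun a ha h4 => ?_)
      (fun h4 => by rw [Finsupp.notMem_support_iff.1 h4, map_zero, smul_zero]),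
      Finsupp.prod_zero_index, one_smul, h0]
    refine h2 _ ?_ _ (Finset.mem_image_of_mem _ (Finset.mem_insert_of_mem ha))
    obtain ⟨i, hi⟩ := Finsupp.support_nonempty_iff.2 h4
    have h5 : i ≤ x.support.sup fun a => a.support.sup id :=
      (Finset.le_sup (f := id) hi).trans (Finset.le_sup (f := fun a : ℕ →₀ ℕ => a.support.sup id) ha)
    refine Ideal.prod_mem _ hi ?_
    exact Ideal.pow_mem_of_mem _ (str_inv_c_mem ga _ I h1 (by omega)) _
      (Nat.pos_of_ne_zero (Finsupp.mem_support_iff.1 hi))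
  rw [act_of_expand H hB φ ga h j y x hx, h3, ← sub_eq_zero]
  have h6 := h2 _ (lead_zpow_sub_mem ga I (h1 0 (Nat.zero_le _)) j) _
    (Finset.mem_image_of_mem x (Finset.mem_insert_self 0 _))
  rw [h0, sub_smul, one_smul] at h6
  exact h6

/-- **Continuity** for `u`-power torsion modules. -/
theorem exists_act_eq_self (hB : LawExt D B) {W : T} (u : B)
    (hu : ∀ y : V χ W, ∃ k : ℕ, u ^ k • y = 0) (x : V χ W) :
    ∃ n m : ℕ, ∀ (φ : B →+* B) (ga : InvSeries B) (h : ga • (D.law.map χ).map φ = D.law.map χ),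
      (∀ b, u ^ m ∣ φ b - b) → (∀ i ≤ n, u ^ m ∣ ga.c i - (1 : InvSeries B).c i) →
      act H hB φ ga h W x = x := by
  classical
  induction x using V.ind with
  | zero => exact ⟨0, 0, fun φ ga h _ _ => map_zero _⟩
  | add x y hx hy =>
    obtain ⟨n, m, hx⟩ := hx
    obtain ⟨n', m', hy⟩ := hy
    refine ⟨max n n', max m m', fun φ ga h h1 h2 => ?_⟩
    rw [map_add, hx φ ga h (fun b => (pow_dvd_pow u (le_max_left _ _)).trans (h1 b))
      (fun i hi => (pow_dvd_pow u (le_max_left _ _)).trans (h2 i (hi.trans (le_max_left _ _)))),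
      hy φ ga h (fun b => (pow_dvd_pow u (le_max_right _ _)).trans (h1 b))
      (fun i hi => (pow_dvd_pow u (le_max_right _ _)).trans (h2 i (hi.trans (le_max_right _ _))))]
  | smul b j y =>
    obtain ⟨n, t, ht⟩ := exists_act_eq H hB (χ := χ) (χ' := χ) j y
    choose k hk using hu
    have hm : ∀ (m : ℕ) (z : V χ W), k z ≤ m → ∀ c, u ^ m ∣ c → c • z = 0 := by
      rintro m z hz _ ⟨c, rfl⟩
      obtain ⟨d, rfl⟩ := Nat.exists_eq_add_of_le hz
      rw [mul_comm, pow_add, mul_comm (u ^ k z), mul_smul, mul_smul, hk, smul_zero, smul_zero]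
    refine ⟨n, max (k (V.of χ W j y)) (t.sup fun z => k (V.mk χ W z)), fun φ ga h h1 h2 => ?_⟩
    rw [LinearMap.map_smulₛₗ, ht φ ga h (Ideal.span {u ^ _})
      (fun i hi => Ideal.mem_span_singleton.2 (h2 i hi))
      (fun c hc z hz => hm _ _ ((Finset.le_sup (f := fun z => k (V.mk χ W z)) hz).trans
        (le_max_right _ _)) c (Ideal.mem_span_singleton.1 hc)), ← sub_eq_zero, ← sub_smul]
    exact hm _ _ (le_max_left _ _) _ (h1 b)

end Vale.Agent.P221X.VT
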