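import Vale.Agent.P221X.VT.Act
import Vale.Agent.P221X.VT.Flat
import Vale.Agent.P251.F.LTTower
import Vale.Agent.P251.F.RJBasis

/-!
# P221, block VT: exactness of `V χ` for a Lubin-Tate point on torsion objects

* `MP_exact`;
* `LTO L F` : the ring `O` with the law `F` has the truncations `E_j` of the Lubin-Tate data `L`;
* `Tors D p h M` : every element of `M` is killed by `p` and by a power of `I_h`;
* `V.exact_of_lto` : `V χ X ⟶ V χ Y ⟶ V χ Z` is exact if `MP R Z` is torsion.
-/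

open CategoryTheory MonoidalCategory Limits Pretriangulated MonObj

set_option linter.unusedSectionVars false

universe v u

noncomputable section

namespace Vale.Agent.P221X.VT

open Vale.Agent.P251 Vale.Agent.P251.T Vale.Agent.P251.M Vale.Agent.P251.M.EvenSpheres
  Vale.Agent.P251.S Vale.Agent.P251.F Vale.Agent.P251.I Vale.Agent.P251.Z Vale.Agent.P251.X
  Vale.Agent.P257

/-! ### Flatness of the Lubin-Tate tower -/

section flat

variable {p h : ℕ} [hp : Fact p.Prime] {k : Type} [Field k]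

theorem flat_incR (L : LTD p h k) (j : ℕ) : (RJ.incR k p h j).Flat := by
  classical
  have := L.charP
  have := L.finite
  let _ : Algebra (ZMod p) k := ZMod.algebra k p
  let b := Module.Free.chooseBasis (ZMod p) k
  let _ := (RJ.incR k p h j).toAlgebra
  let b' : Module.Basis (Module.Free.ChooseBasisIndex (ZMod p) k) (NN p h j) (RJ k p h j) :=
    Module.Basis.mk (v := fun i => algebraMap k (RJ k p h j) (b i))
      (Fintype.linearIndependent_iff.2 fun n hn i => congrFun (RJ.uniq b n (by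
        rw [← hn]
        exact Finset.sum_congr rfl fun i _ => mul_comm _ _)) i)
      (fun t _ => by
        obtain ⟨n, rfl⟩ := RJ.exist b t
        refine Submodule.sum_mem _ fun i _ => ?_
        rw [mul_comm]
        exact Submodule.smul_mem _ (n i) (Submodule.subset_span ⟨i, rfl⟩))
  have : Module.Free (NN p h j) (RJ k p h j) := Module.Free.of_basis b'
  exact (inferInstance : Module.Flat (NN p h j) (RJ k p h j))

/-- `Laz / (p, I_h^(j+1)) ⟶ T_j` -/
def toT (L : LTD p h k) (j : ℕ) : QN p h (j + 1) →+* L.TT j :=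
  ((L.ιR j).comp (RJ.incR k p h (j + 1))).comp (algebraMap (QN p h (j + 1)) (NN p h (j + 1)))

theorem flat_toT (L : LTD p h k) (j : ℕ) : (toT L j).Flat := by
  have h1 : (algebraMap (QN p h (j + 1)) (NN p h (j + 1))).Flat :=
    RingHom.flat_algebraMap_iff.2 inferInstance
  have h2 : (L.ιR j).Flat :=
    (inferInstance : Module.Flat (RJ k p h (j + 1)) (L.TT j))
  exact h1.comp ((flat_incR L (j + 1)).comp h2)

theorem law_toT (L : LTD p h k) (j : ℕ) :
    (Laz.univ.map (Ideal.Quotient.mk (Laz.IJ p h (j + 1)))).map (toT L j) =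
      L.ser j • (L.FE j).map (L.inc j) := by
  rw [toT, ← Law.map_map, ← Law.map_map, ← L.law_eq, ← L.law_map_ιR]
  rfl

/-- The ring `O` with the law `F` has the truncations `E_j`. -/
structure LTO (L : LTD p h k) {O : Type} [CommRing O] (F : Law O) where
  /-- the truncation -/
  r (j : ℕ) : O →+* L.EJ j
  surj (j : ℕ) : Function.Surjective (r j)
  ker (j : ℕ) : RingHom.ker (r j) ≤ Ih p h F ^ (j + 1)
  law (j : ℕ) : F.map (r j) = L.FE j
  p0 : (p : O) = 0

end flat

variable {T : Type u} [Category.{v} T] [Preadditive T] [HasZeroObject T]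
    [HasShift T ℤ] [∀ n : ℤ, (shiftFunctor T n).Additive] [Pretriangulated T] [IsTriangulated T]
    [MonoidalCategory T] [SymmetricCategory T] [TensorTriangulated T] [MonoidalClosed T]
    [HasCoproducts.{0} T] [HasProducts.{0} T] [StableCat T]

section MPex

variable {E : EvenSpheres T} {P : T} [MonObj P]

theorem comp_map {X Y : T} (f : X ⟶ Y) (j : ℤ) (x : MP E P X) :
    MP.comp E P Y j (MP.map E P f x) = MP.comp E P X j x ≫ P ◁ f := by
  induction x using MP.ind with
  | zero => rw [map_zero, map_zero, map_zero, zero_comp]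
  | of i x =>
    rw [MP.map_of]
    by_cases hi : i = j
    · subst hi
      rw [MP.comp_of_same, MP.comp_of_same]
    · rw [MP.comp_of_ne hi, MP.comp_of_ne hi, zero_comp]
  | add x y hx hy => rw [map_add, map_add, map_add, hx, hy, Preadditive.add_comp]

theorem exists_sum_comp {X : T} (x : MP E P X) :
    ∃ s : Finset ℤ, x = ∑ j ∈ s, MP.of E P X j (MP.comp E P X j x) := by
  classical
  exact ⟨DFinsupp.support (β := E.Gr (P ⊗ X)) x,
    (DirectSum.sum_support_of (β := E.Gr (P ⊗ X)) x).symm⟩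

theorem MP_exact {X Y Z : T} {f : X ⟶ Y} {g : Y ⟶ Z} {h : Z ⟶ X⟦(1 : ℤ)⟧}
    (hT : Triangle.mk f g h ∈ distTriang T) (y : MP E P Y) (hy : MP.map E P g y = 0) :
    ∃ x, MP.map E P f x = y := by
  have h1 : ∀ j, ∃ x : E.S j ⟶ P ⊗ X, MP.comp E P Y j y = x ≫ P ◁ f := fun j =>
    ex₂ (tens_dist P hT) _ (by rw [← comp_map, hy, map_zero])
  choose x hx using h1
  obtain ⟨s, hs⟩ := exists_sum_comp y
  refine ⟨∑ j ∈ s, MP.of E P X j (x j), ?_⟩
  rw [hs, map_sum]
  exact Finset.sum_congr rfl fun j _ => by rw [MP.map_of, ← hx]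

theorem MP_map_map {X Y Z : T} (f : X ⟶ Y) (g : Y ⟶ Z) (x : MP E P X) :
    MP.map E P g (MP.map E P f x) = MP.map E P (f ≫ g) x := by
  rw [MP.map_comp]
  rfl

theorem MP_map_zero (X Y : T) (x : MP E P X) : MP.map E P (0 : X ⟶ Y) x = 0 := by
  have h := MP.map_add' (E := E) (P := P) (0 : X ⟶ Y) 0
  rw [add_zero] at h
  rw [left_eq_add.1 h, LinearMap.zero_apply]

end MPex

variable {D : MUData T} {Fc : SpaceFunctor T} {e : Fc.S.obj CCF ≅ (stdEven T).L}

variable (D) in
/-- Every element is killed by `p` and by a power of `I_h`. -/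
def Tors (p h : ℕ) (M : Type*) [AddCommGroup M] [Module (HRing (stdEven T) D.R) M] : Prop :=
  ∀ m : M, (p : HRing (stdEven T) D.R) • m = 0 ∧ ∃ j, ∀ z ∈ Ih p h D.law ^ j, z • m = 0

theorem sup_pow_le {A : Type*} [CommRing A] (I J : Ideal A) (j : ℕ) :
    (I ⊔ J) ^ j ≤ I ⊔ J ^ j := by
  induction j with
  | zero => rw [pow_zero, pow_zero]; exact le_sup_right
  | succ j ih =>
    rw [pow_succ, pow_succ]
    refine (Ideal.mul_mono_left ih).trans (Ideal.mul_le.2 fun a ha b hb => ?_)
    obtain ⟨a1, h1, a2, h2, rfl⟩ := Submodule.mem_sup.1 ha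
    obtain ⟨b1, h3, b2, h4, rfl⟩ := Submodule.mem_sup.1 hb
    rw [add_mul, mul_add a2, ← add_assoc]
    exact Submodule.add_mem_sup (I.add_mem (I.mul_mem_right _ h1) (I.mul_mem_left _ h3))
      (Ideal.mul_mem_mul h2 h4)

/-- the case of height two -/
theorem tors_two {p : ℕ} {M : Type*} [AddCommGroup M] [Module (HRing (stdEven T) D.R) M]
    (h0 : ∀ m : M, (p : HRing (stdEven T) D.R) • m = 0)
    (h1 : ∀ m : M, ∃ j : ℕ, vv p 1 D.law ^ j • m = 0) : Tors D p 2 M := by
  intro m
  obtain ⟨j, hj⟩ := h1 m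
  refine ⟨h0 m, j, fun z hz => ?_⟩
  have h2 : Ih p 2 D.law ≤ Ideal.span {(p : HRing (stdEven T) D.R)} ⊔ Ideal.span {vv p 1 D.law} := by
    refine Ideal.span_le.2 ?_
    rintro _ ⟨i, hi, rfl⟩
    obtain rfl | rfl : i = 0 ∨ i = 1 := by omega
    · rw [vv_zero]
      exact Ideal.mem_sup_left (Ideal.mem_span_singleton_self _)
    · exact Ideal.mem_sup_right (Ideal.mem_span_singleton_self _)
  have h3 := (Ideal.pow_right_mono h2 j).trans (sup_pow_le _ _ j) hz
  obtain ⟨a, ha, b, hb, rfl⟩ := Submodule.mem_sup.1 h3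
  obtain ⟨a, rfl⟩ := Ideal.mem_span_singleton'.1 ha
  rw [Ideal.span_singleton_pow] at hb
  obtain ⟨b, rfl⟩ := Ideal.mem_span_singleton'.1 hb
  rw [add_smul, mul_smul, mul_smul, h0, hj, smul_zero, smul_zero, add_zero]

variable {p h : ℕ} [Fact p.Prime]

variable (D p h) in
/-- the ideal `(p, I_h^j)` -/
def JJ (j : ℕ) : Ideal (HRing (stdEven T) D.R) :=
  Ideal.span {(p : HRing (stdEven T) D.R)} ⊔ Ih p h D.law ^ j

theorem Tors.exists_kill {M : Type*} [AddCommGroup M] [Module (HRing (stdEven T) D.R) M]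
    (hM : Tors D p h M) {N : Submodule (HRing (stdEven T) D.R) M} (hN : N.FG) :
    ∃ j, ∀ z ∈ JJ D p h (j + 1), ∀ y ∈ N, z • y = 0 := by
  obtain ⟨s, rfl⟩ := hN
  choose n hn using fun m => (hM m).2
  refine ⟨s.sup n, fun z hz y hy => ?_⟩
  induction hy using Submodule.span_induction with
  | mem y hy =>
    obtain ⟨a, ha, b, hb, rfl⟩ := Submodule.mem_sup.1 hz
    obtain ⟨a, rfl⟩ := Ideal.mem_span_singleton'.1 ha
    rw [add_smul, mul_smul, (hM y).1, smul_zero, zero_add]
    exact hn y b (Ideal.pow_le_pow_right ((Finset.le_sup hy).trans (Nat.le_succ _)) hb)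
  | zero => exact smul_zero _
  | add x y _ _ hx hy => rw [smul_add, hx, hy, add_zero]
  | smul c x _ hx => rw [smul_comm, hx, smul_zero]

theorem law_L0 : Laz.univ.map (L0 D) = D.law := Laz.univ_map_lift _

/-- `π_{2*} MU / (p, I_h^j) = Laz / (p, I_h^j)` -/
theorem exists_quot (hp : P261Z.T3.MUAt D p) (j : ℕ) :
    ∃ q : HRing (stdEven T) D.R ⧸ JJ D p h j →+* QN p h j, Function.Bijective q ∧
      D.law.map (q.comp (Ideal.Quotient.mk _)) =
        Laz.univ.map (Ideal.Quotient.mk (Laz.IJ p h j)) := by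
  have h0 : (p : QN p h j) = 0 := by
    have h2 : (Ideal.Quotient.mk (Laz.IJ p h j)) (p : Laz) = 0 :=
      Ideal.Quotient.eq_zero_iff_mem.2 (Ideal.mem_sup_left (Ideal.mem_span_singleton_self _))
    rwa [map_natCast] at h2
  obtain ⟨q, hq⟩ := P261Z.T3.exists_homAt hp h0 (Ideal.Quotient.mk (Laz.IJ p h j))
  have h1 : D.law.map q = Laz.univ.map (Ideal.Quotient.mk (Laz.IJ p h j)) := by
    rw [← law_L0, Law.map_map]
    congr 1
    exact RingHom.ext hq
  have h2 : ∀ a ∈ JJ D p h j, q a = 0 := by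
    intro a ha
    refine (sup_le ?_ ?_ : JJ D p h j ≤ RingHom.ker q) ha
    · rw [Ideal.span_singleton_le_iff_mem, RingHom.mem_ker, map_natCast, h0]
    · rw [← Ideal.map_eq_bot_iff_le_ker, Ideal.map_pow, ← Ih_map, h1, Ih_map, ← Ideal.map_pow,
        Ideal.map_eq_bot_iff_le_ker, Ideal.mk_ker]
      exact le_sup_right
  refine ⟨Ideal.Quotient.lift _ q h2, ⟨?_, ?_⟩, h1⟩
  · rw [injective_iff_map_eq_zero]
    intro x hx
    obtain ⟨x, rfl⟩ := Ideal.Quotient.mk_surjective x
    obtain ⟨z, y, rfl⟩ := hp.exists_add x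
    rw [Ideal.Quotient.lift_mk, map_add, map_mul, map_natCast, h0, zero_mul, add_zero, hq,
      Ideal.Quotient.eq_zero_iff_mem] at hx
    rw [Ideal.Quotient.eq_zero_iff_mem]
    refine add_mem ?_ (Ideal.mem_sup_left
      (Ideal.mul_mem_right _ _ (Ideal.mem_span_singleton_self _)))
    have h3 : (Laz.IJ p h j).map (L0 D) ≤ JJ D p h j := by
      rw [Laz.IJ, Ideal.map_sup, Ideal.map_span, Set.image_singleton, map_natCast, Ideal.map_pow,
        Laz.I, ← Ih_map, law_L0]
      exact le_rfl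
    exact h3 (Ideal.mem_map_of_mem _ hx)
  · intro z
    obtain ⟨z, rfl⟩ := Ideal.Quotient.mk_surjective z
    exact ⟨Ideal.Quotient.mk _ (L0 D z), hq z⟩

variable {k : Type} [Field k] {L : LTD p h k} {O : Type} [CommRing O] {F : Law O}

theorem LTO.p0' (S : LTO L F) : (p : OInv O) = 0 := by
  rw [← map_natCast (OInv.inc O), S.p0, map_zero]

/-- the base change to `O[c₀^±, c₁, …]` is exact on torsion modules -/
theorem LTO.injective (S : LTO L F) (hp : P261Z.T3.MUAt D p)
    {lam : HRing (stdEven T) D.R →+* OInv O}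
    (hl : D.law.map lam = OInv.f O • F.map (OInv.inc O)) {K M : Type*} [AddCommGroup K]
    [Module (HRing (stdEven T) D.R) K] [AddCommGroup M] [Module (HRing (stdEven T) D.R) M]
    (hM : Tors D p h M) (f : K →ₗ[HRing (stdEven T) D.R] M) (hf : Function.Injective f) :
    Function.Injective (BC.map lam f) := by
  refine BC.injective_of_fg f hf fun N N' hN hN' => ?_
  obtain ⟨j, hj⟩ := hM.exists_kill hN'
  obtain ⟨q, hq, hq'⟩ := exists_quot (h := h) hp (j + 1)
  let π : OInv O →+* L.TT j := OInv.mapE (S.r j)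
  have h1 : π.comp lam = ((toT L j).comp q).comp (Ideal.Quotient.mk _) := by
    apply lawExt_of hp (L.p_eq_zero' (L.kk j))
    rw [RingHom.comp_assoc, ← Law.map_map _ (toT L j), hq', law_toT, ← Law.map_map, hl,
      InvSeries.map_smul, Law.map_map, ← S.law, Law.map_map]
    congr 1
    · exact OInv.map_mapE_f _
    · congr 1
      exact OInv.mapE_comp_inc _
  refine BC.injective_of_flat (JJ D p h (j + 1)) π (OInv.mapE_surjective (S.surj j))
    ((toT L j).comp q) (fun z => DFunLike.congr_fun h1 z) ?_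
    ((RingHom.Flat.of_bijective hq).comp (flat_toT L j)) _ (Submodule.inclusion_injective hN)
    fun z hz y => Subtype.ext (hj z hz y.1 y.2)
  refine (OInv.ker_mapE (S.surj j)).le.trans ((Ideal.map_mono (S.ker j)).trans ?_)
  rw [Ideal.map_pow, ← Ih_map, ← Ih_smul p h _ (OInv.f O), ← hl, Ih_map, ← Ideal.map_pow]
  exact Ideal.map_mono le_sup_right

/-- **Exactness.** -/
theorem V.exact_of_lto (H : MUUniv e D) (hp : P261Z.T3.MUAt D p) (S : LTO L F)
    {χ : HRing (stdEven T) D.R →+* O} (hχ : D.law.map χ = F) {X Y Z : T} {f : X ⟶ Y} {g : Y ⟶ Z}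
    {δ : Z ⟶ X⟦(1 : ℤ)⟧} (hT : Triangle.mk f g δ ∈ distTriang T)
    (hZ : Tors D p h (MP (stdEven T) D.R Z)) (y : V χ Y) (hy : V.map χ g y = 0) :
    ∃ x, V.map χ f x = y := by
  obtain ⟨lam, hl⟩ := exists_hom_law hp S.p0' (OInv.f O • F.map (OInv.inc O))
  have hA : LawExt D (OInv O) := lawExt_of hp S.p0'
  have hO : LawExt D O := lawExt_of hp S.p0
  have h1 : OInv.f O • (D.law.map χ).map (OInv.inc O) = D.law.map lam := by rw [hχ, hl]
  let ε : OInv O →+* O := OInv.lift (RingHom.id O) 1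
  have h2 : ε.comp lam = χ := by
    apply hO
    rw [← Law.map_map, hl, InvSeries.map_smul, OInv.map_lift_f, one_smul, Law.map_map,
      OInv.lift_comp_inc, Law.map_id, hχ]
  have h3 : (1 : InvSeries O) • (D.law.map χ).map (RingHom.id O) = D.law.map χ := by
    rw [one_smul, Law.map_id]
  have h4 : V.bc ε h2 Y (act H hA (OInv.inc O) (OInv.f O) h1 Y y) = y :=
    (bc_act H hA hO _ _ h1 ε h2 (RingHom.id O) 1 h3 (fun b => (OInv.lift_inc _ _ b).symm)
      (OInv.map_lift_f _ _).symm y).trans (act_id H hO _ _ h3 (fun _ => rfl) rfl y)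
  obtain ⟨x, hx⟩ := BC.exact_of_inj (lam := lam) (MP.map (stdEven T) D.R f)
    (MP.map (stdEven T) D.R g) (MP_exact hT) (fun x => by
      rw [MP_map_map, show f ≫ g = 0 from comp_distTriang_mor_zero₁₂ _ hT, MP_map_zero])
    (S.injective hp hl hZ _ (Submodule.subtype_injective _))
    (act H hA (OInv.inc O) (OInv.f O) h1 Y y) (by
      change V.map lam g _ = 0
      rw [map_act, hy, map_zero])
  refine ⟨V.bc ε h2 X x, ?_⟩
  rw [V.map_bc, ← h4]
  exact congrArg _ hx

end Vale.Agent.P221X.VT
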