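import Vale.Agent.P221X.VT.Sum
import Vale.Agent.P221X.VT.Exact
import Mathlib.RingTheory.Localization.BaseChange
import Mathlib.Algebra.Module.LocalizedModule.Away

/-!
# P221, block VT: self maps, torsion and localisation

* `BC.away` : the base change of a localisation is a localisation;
* `sw W f`, `hur_sw` : a self map of `V` gives a self map of `W ⊗ V`;
* `MP_map_hur`, `V.map_per_hur` : a self map which is `w` in homology acts as `w`;
* `MP_smul_zero`, `MP_p_zero` : annihilators.
-/

open CategoryTheory MonoidalCategory Limits Pretriangulated MonObj TensorProduct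

set_option linter.unusedSectionVars false

universe v u

noncomputable section

namespace Vale.Agent.P221X.VT

open Vale.Agent.P251 Vale.Agent.P251.T Vale.Agent.P251.M Vale.Agent.P251.M.EvenSpheres
  Vale.Agent.P251.S Vale.Agent.P251.X

section away

variable {H B : Type*} [CommRing H] [CommRing B] {χ : H →+* B} {M M' : Type*} [AddCommGroup M]
  [Module H M] [AddCommGroup M'] [Module H M']

theorem BC.map_smul_id (v : H) (x : BC χ M) : BC.map χ (v • LinearMap.id) x = χ v • x := by
  induction x using BC.ind with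
  | zero => rw [map_zero, smul_zero]
  | smul b m =>
    rw [map_smul, BC.map_mk, LinearMap.smul_apply, LinearMap.id_apply, BC.mk_smul, smul_comm]
  | add x y hx hy => rw [map_add, hx, hy, smul_add]

theorem BC.map_id' (x : BC χ M) : BC.map χ LinearMap.id x = x := by
  have h := BC.map_smul_id (χ := χ) 1 x
  rwa [one_smul, map_one, one_smul] at h

theorem BC.smul_bijective {v : H} (h : Function.Bijective fun m : M => v • m) :
    Function.Bijective fun x : BC χ M => χ v • x := by
  let e : M ≃ₗ[H] M := LinearEquiv.ofBijective (v • LinearMap.id) h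
  have h1 : (e.symm : M →ₗ[H] M).comp (v • LinearMap.id) = LinearMap.id :=
    LinearMap.ext e.symm_apply_apply
  have h2 : (v • LinearMap.id : M →ₗ[H] M).comp (e.symm : M →ₗ[H] M) = LinearMap.id :=
    LinearMap.ext e.apply_symm_apply
  refine Function.bijective_iff_has_inverse.2 ⟨BC.map χ (e.symm : M →ₗ[H] M), fun x => ?_,
    fun x => ?_⟩
  · change BC.map χ _ (χ v • x) = x
    rw [← BC.map_smul_id, BC.map_map, h1, BC.map_id']
  · change χ v • _ = _
    rw [← BC.map_smul_id, BC.map_map, h2, BC.map_id']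

theorem BC.toTensor_smul (c : H) (x : BC χ M) :
    BC.toTensor (χ c • x) = c • BC.toTensor x := by
  rw [← BC.map_smul_id, BC.map_eq_lTensor, LinearMap.lTensor_smul, LinearMap.lTensor_id]
  rfl

/-- **The base change of a localisation is a localisation.** -/
theorem BC.away (χ : H →+* B) (v : H) (f : M →ₗ[H] M') [IsLocalizedModule.Away v f] :
    IsLocalizedModule.Away (χ v) (BC.map χ f) := by
  refine IsLocalizedModule.Away.mk_of_addCommGroup ?_ (fun x => ?_) fun x hx => ?_
  · exact (Module.End.isUnit_iff _).2 (BC.smul_bijective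
      ((Module.End.isUnit_iff _).1 (IsLocalizedModule.Away.isUnit_algebraMap f v)))
  · induction x using BC.ind with
    | zero => exact ⟨0, 0, by rw [smul_zero, map_zero]⟩
    | smul b m =>
      obtain ⟨n, y, h⟩ := IsLocalizedModule.Away.surj f v m
      exact ⟨n, b • BC.mk χ y, by
        rw [map_smul, BC.map_mk, ← h, BC.mk_smul, map_pow, smul_comm]⟩
    | add x y hx hy =>
      obtain ⟨n, a, ha⟩ := hx
      obtain ⟨m, b, hb⟩ := hy
      refine ⟨n + m, χ v ^ m • a + χ v ^ n • b, ?_⟩
      rw [map_add, map_smul, map_smul, ← ha, ← hb, smul_smul, smul_smul, ← pow_add, ← pow_add,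
        add_comm m n, smul_add]
  · have h1 : LinearMap.lTensor (Via χ) f (BC.toTensor x) = 0 := by
      rw [← BC.map_eq_lTensor, hx, map_zero]
    have h2 : AlgebraTensorModule.rTensor H (Via χ) f
        (TensorProduct.comm H _ _ (BC.toTensor x)) = AlgebraTensorModule.rTensor H (Via χ) f 0 := by
      rw [map_zero]
      exact (LinearMap.rTensor_comm f _).trans (by rw [h1, map_zero])
    obtain ⟨n, hn⟩ := IsLocalizedModule.Away.exists_of_eq v h2
    rw [smul_zero, ← map_smul, EmbeddingLike.map_eq_zero_iff, ← BC.toTensor_smul,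
      EmbeddingLike.map_eq_zero_iff, map_pow] at hn
    exact ⟨n, hn⟩

end away

variable {T : Type u} [Category.{v} T] [Preadditive T] [MonoidalCategory T]
  [MonoidalPreadditive T] [SymmetricCategory T] {E : EvenSpheres T} {P : T} [MonObj P]
  [IsCommMonObj P] {B : Type*} [CommRing B]

/-- the self map of `W ⊗ V` of a self map of `V` -/
def sw (W : T) {A V : T} (f : A ⊗ V ⟶ V) : A ⊗ (W ⊗ V) ⟶ W ⊗ V :=
  (α_ _ _ _).inv ≫ (β_ A W).hom ▷ V ≫ (α_ _ _ _).hom ≫ W ◁ f

theorem hur_sw (W : T) {A V : T} {f : A ⊗ V ⟶ V} {w : A ⟶ P}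
    (h : f ≫ (λ_ V).inv ≫ η[P] ▷ V = w ▷ V) :
    sw W f ≫ (λ_ (W ⊗ V)).inv ≫ η[P] ▷ (W ⊗ V) = w ▷ (W ⊗ V) := by
  have h1 : (λ_ (W ⊗ V)).inv ≫ η[P] ▷ (W ⊗ V) = W ◁ ((λ_ V).inv ≫ η[P] ▷ V) ≫ (α_ _ _ _).inv ≫
      (β_ W P).hom ▷ V ≫ (α_ _ _ _).hom := by
    rw [MonoidalCategory.whiskerLeft_comp, Category.assoc, associator_inv_naturality_middle_assoc,
      ← comp_whiskerRight_assoc, BraidedCategory.braiding_naturality_right, comp_whiskerRight,
      Category.assoc, associator_naturality_left]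
    simp
  rw [h1, sw, Category.assoc, Category.assoc, Category.assoc,
    ← MonoidalCategory.whiskerLeft_comp_assoc, h, associator_inv_naturality_middle_assoc,
    Iso.hom_inv_id_assoc, ← comp_whiskerRight_assoc, ← comp_whiskerRight_assoc,
    ← BraidedCategory.braiding_naturality_left, Category.assoc, SymmetricCategory.symmetry,
    Category.comp_id, associator_naturality_left, Iso.inv_hom_id_assoc]

theorem crossG_hur {V : T} {j n q : ℤ} (hq : j + n = q) {f : E.S j ⊗ V ⟶ V} {w : E.S j ⟶ P}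
    (h : f ≫ (λ_ V).inv ≫ η[P] ▷ V = w ▷ V) (b : E.S n ⟶ P ⊗ V) :
    crossG hq (FM.unit P (E.S j)) b ≫ P ◁ f = gsmul (ModStr.free P V) hq w b := by
  have h1 : P ◁ f = FM.bind (w ▷ V) := by
    rw [← FM.bind_comp_unit, FM.unit, h]
  have h2 : E.ext hq (FM.unit P (E.S j)) b = E.ext hq (𝟙 _) b ≫ FM.unit P (E.S j) ▷ _ := by
    rw [← ext_comp_left, Category.id_comp]
  have h3 : E.ext hq w b = E.ext hq (𝟙 _) b ≫ w ▷ _ := by
    rw [← ext_comp_left, Category.id_comp]
  unfold crossG gsmul
  rw [h2, h3, Category.assoc, Category.assoc, Category.assoc, FM.unit_tensor_ten_assoc, h1, FM.bind]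
  congr 1
  change _ = w ▷ (P ⊗ V) ≫ (α_ P P V).inv ≫ μ[P] ▷ V
  rw [associator_inv_naturality_middle_assoc, Iso.hom_inv_id_assoc, ← comp_whiskerRight,
    ← comp_whiskerRight, ← BraidedCategory.braiding_naturality_left_assoc, IsCommMonObj.mul_comm,
    associator_inv_naturality_left_assoc, comp_whiskerRight]

theorem MP_map_hur {V : T} {j : ℤ} {f : E.S j ⊗ V ⟶ V} {w : E.S j ⟶ P}
    (h : f ≫ (λ_ V).inv ≫ η[P] ▷ V = w ▷ V) (m : MP E P V) :
    MP.map E P f (MP.cross E P _ V (MP.gen E P j) m) = HRing.of E P j w • m := by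
  induction m using MP.ind with
  | zero => rw [map_zero, map_zero, smul_zero]
  | of n b =>
    rw [MP.gen, MP.cross_of (q := j + n) rfl, MP.map_of, crossG_hur rfl h, MP.smul_of rfl]
  | add x y hx hy => rw [map_add, map_add, hx, hy, smul_add]

theorem V.map_per_hur (χ : HRing E P →+* B) {W : T} {j : ℤ} {f : E.S j ⊗ W ⟶ W} {w : E.S j ⟶ P}
    (h : f ≫ (λ_ W).inv ≫ η[P] ▷ W = w ▷ W) (x : V χ W) :
    V.map χ f (V.per χ j W x) = χ (HRing.of E P j w) • x := by
  rw [V.per_apply]
  induction x using BC.ind with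
  | zero => rw [map_zero, map_zero, smul_zero]
  | smul b m =>
    rw [map_smul, map_smul, V.gen, V.cross_mk, V.map_mk, MP_map_hur h, V.mk_smul, smul_comm]
  | add x y hx hy => rw [map_add, map_add, hx, hy, smul_add]

theorem MP_zero (X Y : T) (x : MP E P X) : MP.map E P (0 : X ⟶ Y) x = 0 := by
  have h := MP.map_add' (E := E) (P := P) (0 : X ⟶ Y) 0
  rw [add_zero] at h
  rw [left_eq_add.1 h, LinearMap.zero_apply]

theorem MP_smul_zero {W : T} {j : ℤ} {w : E.S j ⟶ P} (h : w ▷ W = 0) (m : MP E P W) :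
    HRing.of E P j w • m = 0 := by
  rw [← MP_map_hur (f := 0) (by rw [zero_comp, h]) m, MP_zero]

theorem MP_map_nsmul {X Y : T} (f : X ⟶ Y) (n : ℕ) (m : MP E P X) :
    MP.map E P ((n : ℤ) • f) m = (n : HRing E P) • MP.map E P f m := by
  induction n with
  | zero => rw [Nat.cast_zero, zero_smul, MP_zero, Nat.cast_zero, zero_smul]
  | succ n ih =>
    rw [Nat.cast_succ, add_smul, one_smul, MP.map_add', LinearMap.add_apply, ih, Nat.cast_succ,
      add_smul, one_smul]

theorem MP_p_zero {W : T} {n : ℕ} (h : (n : ℤ) • 𝟙 W = 0) (m : MP E P W) :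
    (n : HRing E P) • m = 0 := by
  have h1 := MP_map_nsmul (E := E) (P := P) (𝟙 W) n m
  rw [h, MP_zero, MP.map_id] at h1
  exact h1.symm

end Vale.Agent.P221X.VT
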