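import Vale.Agent.P251.F.OInv
import Vale.Agent.P251.F.Framed
import Mathlib.Algebra.MonoidAlgebra.Basic
import Mathlib.LinearAlgebra.TensorProduct.Basis

/-!
# P221, block VT: a basis of `OInv B`

The elements `oE B (j, α) = lead ^ (-j) * ∏ (f.str.c (i + 1)) ^ α i` are a basis of `OInv B`.
-/

open TensorProduct

noncomputable section

namespace Vale.Agent.P221X.VT

open Vale.Agent.P251.F

universe u

variable (B : Type u) [CommRing B]

/-- the index set -/
abbrev OI : Type := ℤ × (ℕ →₀ ℕ)

/-- the monomials in the strict part of the generic series -/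
def oM (a : ℕ →₀ ℕ) : OInv B := a.prod fun i m => (OInv.f B).str.c (i + 1) ^ m

/-- the basis elements -/
def oE (k : OI) : OInv B := (((OInv.f B).lead ^ (-k.1) : (OInv B)ˣ) : OInv B) * oM B k.2

theorem oM_add (a b : ℕ →₀ ℕ) : oM B (a + b) = oM B a * oM B b :=
  Finsupp.prod_add_index' (fun _ => pow_zero _) fun _ _ _ => pow_add _ _ _

theorem oM_single (i m : ℕ) : oM B (Finsupp.single i m) = (OInv.f B).str.c (i + 1) ^ m :=
  Finsupp.prod_single_index (pow_zero _)

theorem oM_zero : oM B 0 = 1 := Finsupp.prod_zero_index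

/-- the basis elements are multiplicative -/
def oH : Multiplicative OI →* OInv B where
  toFun k := oE B k.toAdd
  map_one' := by
    change oE B (0, 0) = 1
    rw [oE, oM_zero, neg_zero, zpow_zero, Units.val_one, mul_one]
  map_mul' k l := by
    change oE B (k.toAdd.1 + l.toAdd.1, k.toAdd.2 + l.toAdd.2) = oE B k.toAdd * oE B l.toAdd
    rw [oE, oE, oE, oM_add, neg_add, zpow_add, Units.val_mul]
    ring

theorem exists_basis : ∃ b : Module.Basis OI B (OInv B), ∀ k, b k = oE B k := by
  let A := AddMonoidAlgebra B OI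
  let u : A →ₐ[B] OInv B := AddMonoidAlgebra.lift B (OInv B) OI (oH B)
  have hu : ∀ k, u (AddMonoidAlgebra.single k 1) = oE B k := fun k => by
    rw [AddMonoidAlgebra.lift_single, one_smul]
    rfl
  let τ : Multiplicative ℤ →* A := (AddMonoidAlgebra.of B OI).comp
    (AddMonoidHom.toMultiplicative (AddMonoidHom.inl ℤ (ℕ →₀ ℕ)))
  let t : Aˣ := τ.toHomUnits (Multiplicative.ofAdd (-1))
  have ht : ∀ j : ℤ, ((t ^ (-j) : Aˣ) : A) = AddMonoidAlgebra.single (j, 0) 1 := fun j => by
    rw [← map_zpow, ← ofAdd_zsmul, smul_eq_mul, neg_mul_neg, mul_one]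
    rfl
  let x : ℕ → A := fun i => AddMonoidAlgebra.single (0, Finsupp.single i 1) 1
  let w : OInv B →+* A := OInv.lift (algebraMap B A) (strictMk x * InvSeries.lin t)
  have h1 : Units.map ((u : A →+* OInv B) : A →* OInv B) t = (OInv.f B).lead := by
    refine Units.ext ?_
    have h := ht (-1)
    rw [neg_neg, zpow_one] at h
    change u (t : A) = _
    rw [h, hu, oE, oM_zero, mul_one, neg_neg, zpow_one]
  have huw : (u : A →+* OInv B).comp w = RingHom.id _ := by
    refine OInv.hom_ext ?_ ?_
    · rw [RingHom.comp_assoc, OInv.lift_comp_inc]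
      exact RingHom.ext fun b => u.commutes b
    · rw [← InvSeries.map_map, OInv.map_lift_f, map_mul, map_strictMk, InvSeries.map_lin, h1,
        InvSeries.map_id]
      have h2 : (fun n => (u : A →+* OInv B) (x n)) = fun n => (OInv.f B).str.c (n + 1) := by
        funext n
        change u (x n) = _
        rw [hu, oE, oM_single, neg_zero, zpow_zero, Units.val_one, one_mul, pow_one]
      rw [h2, strictMk_c (InvSeries.str_mem _), InvSeries.str, inv_mul_cancel_right]
  have h3 : Units.map (w : OInv B →* A) (OInv.f B).lead = t := by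
    rw [← InvSeries.lead_map, OInv.map_lift_f, InvSeries.lead_mul,
      InvSeries.lead_eq_one (strictMk_mem _), InvSeries.lead_lin, one_mul]
  have h4 : ∀ i, w ((OInv.f B).str.c (i + 1)) = x i := fun i => by
    rw [← InvSeries.c_map, InvSeries.map_str, OInv.map_lift_f,
      InvSeries.str_mul_of_mem (strictMk_mem _), InvSeries.str, InvSeries.lead_lin, mul_inv_cancel,
      mul_one, c_succ_strictMk]
  have h5 : ∀ a, w (oM B a) = AddMonoidAlgebra.single (0, a) 1 := fun a => by
    induction a using Finsupp.induction_linear with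
    | zero => rw [oM_zero, map_one]; rfl
    | add a b ha hb =>
      rw [oM_add, map_mul, ha, hb, AddMonoidAlgebra.single_mul_single, mul_one, Prod.mk_add_mk,
        add_zero]
    | single i m =>
      rw [oM_single, map_pow, h4, AddMonoidAlgebra.single_pow, one_pow, Prod.smul_mk, smul_zero,
        Finsupp.smul_single, smul_eq_mul, mul_one]
  have hwu : ∀ y, w (u y) = y := fun y => by
    induction y using AddMonoidAlgebra.induction_linear with
    | zero => rw [map_zero, map_zero]
    | add y z hy hz => rw [map_add, map_add, hy, hz]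
    | single k b =>
      have h6 : (AddMonoidAlgebra.single k b : A) =
          algebraMap B A b * AddMonoidAlgebra.single k 1 := by
        rw [← Algebra.smul_def, AddMonoidAlgebra.smul_single, smul_eq_mul, mul_one]
      have h7 : w (((OInv.f B).lead ^ (-k.1) : (OInv B)ˣ) : OInv B) = ((t ^ (-k.1) : Aˣ) : A) := by
        rw [← h3, ← map_zpow]
        rfl
      rw [h6, map_mul, map_mul, u.commutes, hu, oE, map_mul, h5, h7, ht,
        AddMonoidAlgebra.single_mul_single, mul_one, Prod.mk_add_mk, add_zero, zero_add]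
      congr 1
      exact OInv.lift_inc _ _ b
  have hb : Function.Bijective u :=
    ⟨Function.LeftInverse.injective hwu, fun z => ⟨w z, DFunLike.congr_fun huw z⟩⟩
  exact ⟨(AddMonoidAlgebra.basis OI B).map (LinearEquiv.ofBijective u.toLinearMap hb), fun k => hu k⟩

theorem bij_oE (I : Type*) [AddCommGroup I] [Module B I] :
    Function.Bijective fun x : OI →₀ I => (x.sum fun k y => oE B k ⊗ₜ[B] y : OInv B ⊗[B] I) := by
  classical
  obtain ⟨b, hb⟩ := exists_basis B
  have h := (TensorProduct.equivFinsuppOfBasisLeft (N := I) b).symm.bijective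
  have h2 : (fun x : OI →₀ I => (x.sum fun k y => oE B k ⊗ₜ[B] y : OInv B ⊗[B] I)) =
      (TensorProduct.equivFinsuppOfBasisLeft (N := I) b).symm := by
    funext x
    rw [TensorProduct.equivFinsuppOfBasisLeft_symm_apply]
    simp only [hb]
  rwa [h2]

end Vale.Agent.P221X.VT
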