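import Vale.Agent.P221X.VT.Mul
import Vale.Agent.P221X.VT.OBas

/-!
# P221, block VT: the `MU`-homology of a module

`a : ModStr P Y`, `l j : (S^{2j} ⟶ Y) →+ I` linear over `χ` (`Lin χ a l`).

* `V.evM : V χ Y →ₗ I`, `of j x ↦ l j (x ≫ a.act)`; `evM_hur`, `evM_mul`, `evM_rho`, `evM_bc_map`;
* `kap : MP R Y →+ J`, `x ↦ evM (act ga (1 ⊗ x))`; `kap_smul`, `kap_hur`, `kap_pt`, `kap_tw`;
* `kap_bijective` : `MP R Y ≃ OInv B ⊗_B I` if `π_{2j} Y = I` for all `j`.
-/

open CategoryTheory MonoidalCategory Limits Pretriangulated MonObj TensorProduct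

set_option linter.unusedSectionVars false

universe v u w

noncomputable section

namespace Vale.Agent.P221X.VT

open Vale.Agent.P251 Vale.Agent.P251.T Vale.Agent.P251.M Vale.Agent.P251.M.EvenSpheres
  Vale.Agent.P251.S Vale.Agent.P251.F Vale.Agent.P251.I Vale.Agent.P251.Z Vale.Agent.P251.X
  Vale.Agent.P257

/-- the inverse of `BC.mk` for `χ = id` -/
def BC.un (A M : Type*) [CommRing A] [AddCommGroup M] [Module A M] :
    BC (RingHom.id A) M →ₗ[A] M :=
  BC.lift (RingHom.id A) (AddMonoidHom.id M) fun _ _ => rfl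

theorem BC.un_mk {A M : Type*} [CommRing A] [AddCommGroup M] [Module A M] (m : M) :
    BC.un A M (BC.mk (RingHom.id A) m) = m := BC.lift_mk _ _ _ m

section general

variable {T : Type u} [Category.{v} T] [Preadditive T] [MonoidalCategory T]
  [MonoidalPreadditive T] [SymmetricCategory T] {E : EvenSpheres T} {P : T} [MonObj P]
  [IsCommMonObj P] {B B' : Type*} [CommRing B] [CommRing B'] {Y Y' : T}
  {I I' : Type*} [AddCommGroup I] [Module B I] [AddCommGroup I'] [Module B' I']

variable (E P) in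
/-- the identity of the homotopy ring -/
abbrev idH : HRing E P →+* HRing E P := RingHom.id (HRing E P)

/-- `l` is linear over `χ` -/
def Lin (χ : HRing E P →+* B) (a : ModStr P Y) (l : ∀ j : ℤ, (E.S j ⟶ Y) →+ I) : Prop :=
  ∀ ⦃i j k : ℤ⦄ (h : i + j = k) (z : E.S i ⟶ P) (y : E.S j ⟶ Y),
    l k (gsmul a h z y) = χ (HRing.of E P i z) • l j y

theorem isLinear_act (a : ModStr P Y) : (ModStr.free P Y).IsLinear a a.act := by
  change ((α_ P P Y).inv ≫ μ[P] ▷ Y) ≫ a.act = _
  rw [Category.assoc, a.mul_act, Iso.inv_hom_id_assoc]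

theorem unit_act (a : ModStr P Y) : FM.unit P Y ≫ a.act = 𝟙 Y := by
  rw [FM.unit, Category.assoc, a.one_act, Iso.inv_hom_id]

theorem Lin.comp {χ : HRing E P →+* B} {a : ModStr P Y} {l : ∀ j : ℤ, (E.S j ⟶ Y) →+ I}
    (hl : Lin χ a l) (φ : B →+* B') (ψ : I →+ I') (hψ : ∀ b y, ψ (b • y) = φ b • ψ y) :
    Lin (φ.comp χ) a fun j => ψ.comp (l j) := fun _ _ _ h z y => by
  rw [AddMonoidHom.comp_apply, hl h, hψ]
  rfl

namespace V

variable {χ : HRing E P →+* B} {a : ModStr P Y} {l : ∀ j : ℤ, (E.S j ⟶ Y) →+ I}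

variable (a l) in
/-- the additive map under `evM` -/
def evA : MP E P Y →+ I := MP.lift fun j =>
  { toFun := fun x => l j (x ≫ a.act)
    map_zero' := by rw [zero_comp, map_zero]
    map_add' := fun x y => by rw [Preadditive.add_comp, map_add] }

theorem evA_of (j : ℤ) (x : E.S j ⟶ P ⊗ Y) : evA a l (MP.of E P Y j x) = l j (x ≫ a.act) :=
  MP.lift_of (W := Y) (B := I) (fun j =>
    { toFun := fun x => l j (x ≫ a.act)
      map_zero' := by rw [zero_comp, map_zero]
      map_add' := fun x y => by rw [Preadditive.add_comp, map_add] }) j x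

variable (hl : Lin χ a l)

include hl in
theorem evA_smul (z : HRing E P) (m : MP E P Y) : evA a l (z • m) = χ z • evA a l m := by
  induction z using DirectSum.induction_on with
  | zero => rw [zero_smul, map_zero, map_zero, zero_smul]
  | add z z' h h' => rw [add_smul, map_add, h, h', map_add, add_smul]
  | of i z =>
    induction m using MP.ind with
    | zero => rw [smul_zero, map_zero, smul_zero]
    | add x y hx hy => rw [smul_add, map_add, map_add, hx, hy, smul_add]
    | of j x =>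
      change evA a l (HRing.of E P i z • MP.of E P Y j x) = χ (HRing.of E P i z) • _
      rw [MP.smul_of (k := i + j) rfl, evA_of, evA_of, ← gsmul_comp _ _ (isLinear_act a)]
      exact hl rfl z _

/-- **The evaluation** `V χ Y ⟶ I`. -/
def evM : V χ Y →ₗ[B] I := BC.lift (RingHom.id B) (evA a l) (evA_smul hl)

theorem evM_of (j : ℤ) (x : E.S j ⟶ P ⊗ Y) : evM hl (of χ Y j x) = l j (x ≫ a.act) := by
  rw [evM, BC.lift_mk, evA_of]

theorem evM_hur (j : ℤ) (y : E.S j ⟶ Y) : evM hl (hur χ j y) = l j y := by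
  rw [hur, evM_of, Category.assoc, unit_act, Category.comp_id]

theorem evM_mul (x : V χ (P ⊗ Y)) : evM hl (map χ a.act x) = evM hl (mul χ Y x) := by
  induction x using ind with
  | zero => simp only [map_zero]
  | add x x' hx hx' => simp only [map_add, hx, hx']
  | smul b j x =>
    simp only [map_smul]
    rw [map_of, mul_of, evM_of, evM_of, Category.assoc, Category.assoc, Category.assoc, a.mul_act,
      Iso.inv_hom_id_assoc]

theorem evM_rho (s : V χ P) (z : V χ Y) : evM hl (rho χ a s z) = eps χ s • evM hl z := by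
  rw [rho_apply, evM_mul, mul_cross, map_smul]

/-- naturality in the ring, the module and the values -/
theorem evM_bc_map {χ' : HRing E P →+* B'} {a' : ModStr P Y'} {l' : ∀ j : ℤ, (E.S j ⟶ Y') →+ I'}
    (hl' : Lin χ' a' l') (φ : B →+* B') (h : φ.comp χ = χ') {f : Y ⟶ Y'} (hf : a.IsLinear a' f)
    (ψ : I →+ I') (hψ : ∀ b y, ψ (b • y) = φ b • ψ y) (hll : ∀ j y, l' j (y ≫ f) = ψ (l j y))
    (x : V χ Y) : evM hl' (bc φ h Y' (map χ f x)) = ψ (evM hl x) := by
  induction x using ind with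
  | zero => simp only [map_zero]
  | add x x' hx hx' => simp only [map_add, hx, hx']
  | smul b j x =>
    simp only [LinearMap.map_smulₛₗ, RingHom.id_apply]
    rw [hψ, map_of, bc_mk, evM_of, evM_of, Category.assoc, ← hf, ← Category.assoc, hll]

theorem evM_bc {χ' : HRing E P →+* B'} {l' : ∀ j : ℤ, (E.S j ⟶ Y) →+ I'}
    (hl' : Lin χ' a l') (φ : B →+* B') (h : φ.comp χ = χ')
    (ψ : I →+ I') (hψ : ∀ b y, ψ (b • y) = φ b • ψ y) (hll : ∀ j y, l' j y = ψ (l j y))
    (x : V χ Y) : evM hl' (bc φ h Y x) = ψ (evM hl x) := by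
  have h1 := evM_bc_map hl hl' φ h (f := 𝟙 Y)
    (by change _ = _; rw [whiskerLeft_id, Category.id_comp, Category.comp_id]) ψ hψ
    (fun j y => by rw [Category.comp_id, hll]) x
  rwa [map_id] at h1

theorem evM_map {a' : ModStr P Y'} {l' : ∀ j : ℤ, (E.S j ⟶ Y') →+ I} (hl' : Lin χ a' l')
    {f : Y ⟶ Y'} (hf : a.IsLinear a' f) (hll : ∀ j y, l' j (y ≫ f) = l j y) (x : V χ Y) :
    evM hl' (map χ f x) = evM hl x := by
  induction x using ind with
  | zero => simp only [map_zero]
  | add x x' hx hx' => simp only [map_add, hx, hx']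
  | smul b j x =>
    rw [map_smul, map_smul, map_smul, map_of, evM_of, evM_of, Category.assoc, ← hf,
      ← Category.assoc, hll]

/-! ### Change of the ring -/

variable {χ' : HRing E P →+* B'} (φ : B →+* B') (h : φ.comp χ = χ')

theorem bc_cross {X W : T} (x : V χ X) (y : V χ W) :
    bc φ h (X ⊗ W) (cross χ X W x y) = cross χ' X W (bc φ h X x) (bc φ h W y) := by
  induction x, y using ind₂ with
  | zl y => simp only [map_zero, LinearMap.zero_apply]
  | zr x => simp only [map_zero]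
  | oo b c m n =>
    simp only [map_smul, LinearMap.smul_apply, LinearMap.map_smulₛₗ, cross_mk, bc_mk]
  | al x x' y h h' => simp only [map_add, LinearMap.add_apply, h, h']
  | ar x y y' h h' => simp only [map_add, h, h']

theorem bc_hur (j : ℤ) (y : E.S j ⟶ Y) : bc φ h Y (hur χ j y) = hur χ' j y := bc_mk φ h _

theorem bc_rhoG (a : ModStr P Y) (g : HRing E (P ⊗ P)) (z : V χ Y) :
    bc φ h Y (rhoG χ a g z) = rhoG χ' a g (bc φ h Y z) := by
  rw [rhoG_apply, rhoG_apply, rho_apply, rho_apply, ← map_bc, bc_cross, mkG_apply, bc_mk, mkG_apply]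

variable (E P) in
/-- the inverse of `mk` for `χ = id` -/
def un (W : T) : V (idH E P) W →ₗ[HRing E P] MP E P W :=
  BC.un (HRing E P) (MP E P W)

theorem un_mk {W : T} (m : MP E P W) : un E P W (mk (idH E P) W m) = m := BC.un_mk m

theorem mk_un (χ : HRing E P →+* B) {W : T} (x : V (idH E P) W) :
    mk χ W (un E P W x) = bc χ (RingHom.comp_id χ) W x := by
  induction x using BC.ind with
  | zero => simp only [map_zero]
  | add x x' hx hx' => simp only [map_add, hx, hx']
  | smul b m => rw [map_smul, un_mk, mk_smul, LinearMap.map_smulₛₗ, bc_mk]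

theorem mk_hur (χ : HRing E P →+* B) (j : ℤ) (y : E.S j ⟶ Y) :
    mk χ Y (MP.map E P y (MP.gen E P j)) = hur χ j y := by
  rw [hur_eq, gen, map_mk]

end V

end general

variable {T : Type u} [Category.{v} T] [Preadditive T] [HasZeroObject T]
    [HasShift T ℤ] [∀ n : ℤ, (shiftFunctor T n).Additive] [Pretriangulated T] [IsTriangulated T]
    [MonoidalCategory T] [SymmetricCategory T] [TensorTriangulated T] [MonoidalClosed T]
    [HasCoproducts.{0} T] [HasProducts.{0} T] [StableCat T] {D : MUData T}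
  {Fc : SpaceFunctor T} {e : Fc.S.obj CCF ≅ (stdEven T).L}
  {A A' : Type*} [CommRing A] [CommRing A'] (H : MUUniv e D) {Y Y' : T}
  {J J' : Type*} [AddCommGroup J] [Module A J] [AddCommGroup J'] [Module A' J']

/-- `act` on the classes `1 ⊗ m` depends only on the target and the series -/
theorem act_mk_congr {B₁ B₂ : Type*} [CommRing B₁] [CommRing B₂] (hA : LawExt D A)
    {χ₁ : HRing (stdEven T) D.R →+* B₁} {χ₂ : HRing (stdEven T) D.R →+* B₂}
    {χ' : HRing (stdEven T) D.R →+* A} (φ₁ : B₁ →+* A) (φ₂ : B₂ →+* A) {ga ga' : InvSeries A}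
    (hg : ga = ga') (h₁ : ga • (D.law.map χ₁).map φ₁ = D.law.map χ')
    (h₂ : ga' • (D.law.map χ₂).map φ₂ = D.law.map χ') {W : T} (m : MP (stdEven T) D.R W) :
    act H hA φ₁ ga h₁ W (V.mk χ₁ W m) = act H hA φ₂ ga' h₂ W (V.mk χ₂ W m) := by
  subst hg
  induction m using MP.ind with
  | zero => simp only [map_zero]
  | add x y hx hy => simp only [map_add, hx, hy]
  | of j x => rw [act_of, act_of]

section kap

variable (hA : LawExt D A) {χT χ₀ : HRing (stdEven T) D.R →+* A} (ga : InvSeries A)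
  (h : ga • (D.law.map χT).map (RingHom.id A) = D.law.map χ₀) {a : ModStr D.R Y}
  {l : ∀ j : ℤ, ((stdEven T).S j ⟶ Y) →+ J} (hl : Lin χ₀ a l)

/-- `x ↦ evM (act ga (1 ⊗ x))` -/
def kap : MP (stdEven T) D.R Y →+ J :=
  ((V.evM hl).toAddMonoidHom.comp (act H hA (RingHom.id A) ga h Y).toAddMonoidHom).comp (V.mk χT Y)

theorem kap_apply (x : MP (stdEven T) D.R Y) :
    kap H hA ga h hl x = V.evM hl (act H hA (RingHom.id A) ga h Y (V.mk χT Y x)) := rfl

theorem kap_smul (z : HRing (stdEven T) D.R) (x : MP (stdEven T) D.R Y) :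
    kap H hA ga h hl (z • x) = χT z • kap H hA ga h hl x := by
  rw [kap_apply, kap_apply, V.mk_smul, map_smul, map_smul]

theorem kap_hur (j : ℤ) (y : (stdEven T).S j ⟶ Y) :
    kap H hA ga h hl (MP.map (stdEven T) D.R y (MP.gen (stdEven T) D.R j)) =
      ((ga.lead ^ j : Aˣ) : A) • l j y := by
  rw [kap_apply, V.mk_hur, act_hur, map_smul, V.evM_hur]

theorem kap_un_rhoG (g : HRing (stdEven T) (D.R ⊗ D.R)) (j : ℤ) (y : (stdEven T).S j ⟶ Y) :
    kap H hA ga h hl (V.un _ _ Y (V.rhoG (idH _ D.R) a g (V.hur (idH _ D.R) j y))) =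
      (thG H χT (RingHom.id A) ga g * ((ga.lead ^ j : Aˣ) : A)) • l j y := by
  rw [kap_apply, V.mk_un, V.bc_rhoG, V.bc_hur, V.rhoG_apply, act_rho, V.evM_rho, eps_act, act_hur,
    map_smul, V.evM_hur, mul_smul]

/-- **Points.** -/
theorem kap_pt (hA' : LawExt D A') (pt : A →+* A') (ψ : J →+ J')
    (hψ : ∀ t y, ψ (t • y) = pt t • ψ y) {χ' : HRing (stdEven T) D.R →+* A'}
    (hχ : pt.comp χ₀ = χ') {l' : ∀ j : ℤ, ((stdEven T).S j ⟶ Y) →+ J'} (hl' : Lin χ' a l')
    (hll : ∀ j y, l' j y = ψ (l j y)) {B₁ : Type*} [CommRing B₁]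
    {χ₁ : HRing (stdEven T) D.R →+* B₁} (φ₁ : B₁ →+* A') {ga' : InvSeries A'}
    (hg : ga' = InvSeries.map pt ga) (h₁ : ga' • (D.law.map χ₁).map φ₁ = D.law.map χ')
    (x : MP (stdEven T) D.R Y) :
    ψ (kap H hA ga h hl x) = V.evM hl' (act H hA' φ₁ ga' h₁ Y (V.mk χ₁ Y x)) := by
  have h₃ : ga' • (D.law.map χT).map pt = D.law.map χ' := by
    rw [hg, ← hχ, ← Law.map_map, ← h, Law.map_id, InvSeries.map_smul]
  rw [kap_apply, ← V.evM_bc hl hl' pt hχ ψ hψ hll,
    bc_act H hA hA' _ _ h pt hχ pt ga' h₃ (fun _ => rfl) hg,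
    act_mk_congr H hA' pt φ₁ rfl h₃ h₁]

/-- **Twisted maps.** If `f` undoes the automorphism `gm` then it induces the translation `ρ`. -/
theorem kap_tw (gm : InvSeries A) (hγ : gm • (D.law.map χ₀).map (RingHom.id A) = D.law.map χ₀)
    (f : Y ⟶ Y)
    (hf : ∀ x, V.evM hl (V.map χ₀ f (act H hA (RingHom.id A) gm hγ Y x)) = V.evM hl x)
    (ρ : A →+* A) (ψ : J →+ J) (hψ : ∀ t y, ψ (t • y) = ρ t • ψ y) (hρ : ρ.comp χ₀ = χ₀)
    (hll : ∀ j y, l j y = ψ (l j y)) (hg : gm * InvSeries.map ρ ga = ga)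
    (x : MP (stdEven T) D.R Y) :
    kap H hA ga h hl (MP.map (stdEven T) D.R f x) = ψ (kap H hA ga h hl x) := by
  have h₁ : InvSeries.map ρ ga • (D.law.map χT).map (RingHom.id A) = D.law.map χ₀ := by
    rw [Law.map_id] at h hγ ⊢
    rw [eq_inv_mul_of_mul_eq hg, mul_smul, h, inv_smul_eq_iff, hγ]
  rw [kap_pt H hA ga h hl hA ρ ψ hψ hρ hl hll (RingHom.id A) rfl h₁, ← hf,
    act_act H hA hA _ _ h₁ _ _ hγ (RingHom.id A) ga h (fun _ => rfl)
      (by rw [InvSeries.map_id, hg]), map_act, V.map_mk, kap_apply]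

end kap

/-! ### The right basis -/

variable (D) in
/-- the exchange of the two factors -/
def swp : D.R ⊗ D.R ⟶ D.R ⊗ D.R := descM (inrM D.R D.R) (inlM D.R D.R)

instance : IsMonHom (swp D) := inferInstanceAs (IsMonHom (descM (inrM D.R D.R) (inlM D.R D.R)))

theorem inl_swp : inlM D.R D.R ≫ swp D = inrM D.R D.R := inlM_descM _ _

theorem inr_swp : inrM D.R D.R ≫ swp D = inlM D.R D.R := inrM_descM _ _

theorem swp_swp : swp D ≫ swp D = 𝟙 _ := hom_ext_tensor
  (by rw [← Category.assoc, inl_swp, inr_swp, Category.comp_id])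
  (by rw [← Category.assoc, inr_swp, inl_swp, Category.comp_id])

variable (D) in
/-- the monomials in the coefficients of the inverse of the universal series -/
def sMon (α : ℕ →₀ ℕ) : HRing (stdEven T) (D.R ⊗ D.R) := HRing.map (swp D) (bMon D (𝟙 D.R) α)

include H in
theorem span_right (g : HRing (stdEven T) (D.R ⊗ D.R)) :
    ∃ x : (ℕ →₀ ℕ) →₀ HRing (stdEven T) D.R, g = x.sum fun α z => sMon D α * ηR D z := by
  obtain ⟨x, hx⟩ := span_eps H (𝟙 D.R) (HRing.map (swp D) g)
  refine ⟨x, ?_⟩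
  have h1 : g = HRing.map (swp D) (HRing.map (swp D) g) := by
    rw [← RingHom.comp_apply, ← HRing.map_comp, HRing_map_congr swp_swp, HRing.map_id,
      RingHom.id_apply]
  rw [h1, hx, Finsupp.sum, Finsupp.sum, map_sum]
  refine Finset.sum_congr rfl fun α _ => ?_
  rw [map_mul, mul_comm, ← RingHom.comp_apply (HRing.map (swp D)) (HRing.map _), ← HRing.map_comp,
    HRing_map_congr inl_swp]
  rfl

theorem map_sMon (θ : HRing (stdEven T) (D.R ⊗ D.R) →+* A) (α : ℕ →₀ ℕ) :
    θ (sMon D α) = α.prod fun i m => (InvSeries.map θ (uSer D))⁻¹.c (i + 1) ^ m := by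
  have h1 : InvSeries.map (HRing.map (swp D)) (uSer D) = (uSer D)⁻¹ := by
    rw [map_uSer, ser_congr inl_swp inr_swp, uSer, P221.H246.ser_inv]
  rw [sMon, bMon, Finsupp.prod, Finsupp.prod, map_prod, map_prod]
  refine Finset.prod_congr rfl fun i _ => ?_
  rw [map_pow, map_pow, ← uSer_c, ← InvSeries.c_map, h1, ← InvSeries.c_map, map_inv]

include H in
/-- `MP R Y` is spanned by the classes `sMon α · hur y` -/
theorem ind_right (a : ModStr D.R Y) {motive : MP (stdEven T) D.R Y → Prop}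
    (x : MP (stdEven T) D.R Y) (zero : motive 0)
    (gen : ∀ (α : ℕ →₀ ℕ) (j : ℤ) (y : (stdEven T).S j ⟶ Y),
      motive (V.un _ _ Y (V.rhoG (idH _ D.R) a (sMon D α) (V.hur (idH _ D.R) j y))))
    (add : ∀ x y, motive x → motive y → motive (x + y)) : motive x := by
  rw [← V.un_mk x]
  refine ind_mod H a (motive := fun w => motive (V.un _ _ Y w)) _ ?_ ?_ ?_
  · rw [map_zero]
    exact zero
  · intro b g j y
    obtain ⟨c, hc⟩ := span_right H (ηL D b * g)
    have h1 : b • V.rhoG (idH _ D.R) a g (V.hur (idH _ D.R) j y) =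
        V.rhoG (idH _ D.R) a (ηL D b * g) (V.hur (idH _ D.R) j y) := by
      rw [map_mul, Module.End.mul_apply, V.rhoG_inl, RingHom.id_apply]
    rw [h1, hc, Finsupp.sum, map_sum, LinearMap.sum_apply, map_sum]
    refine Finset.sum_induction _ motive add zero fun α _ => ?_
    generalize c α = z
    induction z using DirectSum.induction_on with
    | zero => rw [map_zero, mul_zero, map_zero, LinearMap.zero_apply, map_zero]; exact zero
    | add z z' k k' =>
      rw [map_add, mul_add, map_add, LinearMap.add_apply, map_add]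
      exact add _ _ k k'
    | of i z =>
      have h2 := V.rhoG_inr (idH _ D.R) a (k := i + j) rfl z y
      have h3 := gen α (i + j) (gsmul a rfl z y)
      rw [← h2] at h3
      rw [map_mul, Module.End.mul_apply]
      exact h3
  · intro x y hx hy
    rw [map_add]
    exact add _ _ hx hy

section bij

variable {B : Type w} [CommRing B] (hA : LawExt D (OInv B))
  {χT χ₀ : HRing (stdEven T) D.R →+* OInv B}
  (h : (OInv.f B)⁻¹ • (D.law.map χT).map (RingHom.id _) = D.law.map χ₀) {a : ModStr D.R Y}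
  {J : Type*} [AddCommGroup J] [Module (OInv B) J]
  {l : ∀ j : ℤ, ((stdEven T).S j ⟶ Y) →+ J} (hl : Lin χ₀ a l)

theorem kap_basis (α : ℕ →₀ ℕ) (j : ℤ) (y : (stdEven T).S j ⟶ Y) :
    kap H hA _ h hl (V.un _ _ Y (V.rhoG (idH _ D.R) a (sMon D α) (V.hur (idH _ D.R) j y))) =
      oE B (j, α) • l j y := by
  rw [kap_un_rhoG, map_sMon, thG_uSer, mul_inv_rev, inv_inv, inv_inv, InvSeries.lead_inv, map_inv,
    inv_zpow', mul_comm]
  rfl

/-- **`MP R Y = OInv B ⊗_B I`.** -/
theorem kap_bijective {I : Type*} [AddCommGroup I] (py : ∀ j : ℤ, ((stdEven T).S j ⟶ Y) →+ I)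
    (hpy : ∀ j, Function.Bijective (py j)) (io : I →+ J) (hι : ∀ j y, l j y = io (py j y))
    (hb : Function.Bijective fun x : OI →₀ I => x.sum fun k y => oE B k • io y) :
    Function.Bijective (kap H hA _ h hl) := by
  let q : ∀ j : ℤ, ((stdEven T).S j ⟶ Y) ≃+ I := fun j => AddEquiv.ofBijective (py j) (hpy j)
  let Ψ : (OI →₀ I) →+ MP (stdEven T) D.R Y := Finsupp.liftAddHom fun k => AddMonoidHom.mk'
    (fun y => V.un _ _ Y (V.rhoG (idH _ D.R) a (sMon D k.2)
      (V.hur (idH _ D.R) k.1 ((q k.1).symm y))))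
    fun y y' => by rw [map_add, V.hur_add, map_add, map_add]
  have hΨ : ∀ k y, Ψ (Finsupp.single k y) = V.un _ _ Y (V.rhoG (idH _ D.R) a (sMon D k.2)
      (V.hur (idH _ D.R) k.1 ((q k.1).symm y))) := fun k y =>
    Finsupp.liftAddHom_apply_single _ k y
  have h1 : ∀ x, kap H hA _ h hl (Ψ x) = x.sum fun k y => oE B k • io y := fun x => by
    induction x using Finsupp.induction_linear with
    | zero => rw [map_zero, map_zero, Finsupp.sum_zero_index]
    | add x x' k k' =>
      rw [map_add, map_add, k, k', Finsupp.sum_add_index' (fun _ => by rw [map_zero, smul_zero])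
        fun _ _ _ => by rw [map_add, smul_add]]
    | single k y =>
      rw [hΨ, kap_basis, Finsupp.sum_single_index (by rw [map_zero, smul_zero]), hι]
      exact congrArg (fun z => oE B k • io z) ((q k.1).apply_symm_apply y)
  have h2 : Function.Surjective Ψ := fun m => by
    refine ind_right H a (motive := fun m => ∃ x, Ψ x = m) m ⟨0, map_zero _⟩ ?_ ?_
    · intro α j y
      exact ⟨Finsupp.single (j, α) (q j y), by rw [hΨ, AddEquiv.symm_apply_apply]⟩
    · rintro _ _ ⟨x, rfl⟩ ⟨y, rfl⟩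
      exact ⟨x + y, map_add _ _ _⟩
  have h3 : Function.Bijective ((kap H hA _ h hl) ∘ Ψ) := by
    rwa [show (kap H hA _ h hl) ∘ Ψ = fun x : OI →₀ I => x.sum fun k y => oE B k • io y from
      funext h1]
  exact ⟨Function.Injective.of_comp_right h3.1 h2, h3.2.of_comp⟩

end bij

/-- the hypothesis `hb` for `J = OInv B ⊗_B I` -/
theorem hb_tensor (B : Type w) [CommRing B] (I : Type*) [AddCommGroup I] [Module B I] :
    Function.Bijective fun x : OI →₀ I => x.sum fun k y =>
      oE B k • (TensorProduct.mk B (OInv B) I 1).toAddMonoidHom y := by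
  have h : ∀ (k : OI) (y : I), oE B k • (TensorProduct.mk B (OInv B) I 1).toAddMonoidHom y =
      oE B k ⊗ₜ[B] y := fun k y => by
    change oE B k • ((1 : OInv B) ⊗ₜ[B] y) = _
    rw [TensorProduct.smul_tmul', smul_eq_mul, _root_.mul_one]
  simp only [h]
  exact bij_oE B I

/-- the hypothesis `hb` for `J = OInv B` -/
theorem hb_self (B : Type w) [CommRing B] :
    Function.Bijective fun x : OI →₀ B => x.sum fun k y =>
      oE B k • (OInv.inc B).toAddMonoidHom y := by
  obtain ⟨b, hb⟩ := exists_basis B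
  have h : (fun x : OI →₀ B => x.sum fun k y => oE B k • (OInv.inc B).toAddMonoidHom y) =
      b.repr.symm := by
    funext x
    rw [Module.Basis.repr_symm_apply, Finsupp.linearCombination_apply]
    refine Finsupp.sum_congr fun k _ => ?_
    rw [hb, Algebra.smul_def (x k), smul_eq_mul, mul_comm]
    rfl
  rw [h]
  exact b.repr.symm.bijective

end Vale.Agent.P221X.VT
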