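import Mathlib.RingTheory.TensorProduct.Basic
import Mathlib.Algebra.Module.LinearMap.Basic

/-!
# P221, block VT: base change of a module along a ring homomorphism

`BC χ M = B ⊗_H M` for `χ : H →+* B`; `BC.mk`, `BC.lift`, `BC.ind`, `BC.hom_ext`, `BC.map`,
`BC.lift₂` (bilinear maps), `BC.bc` (change of the ring `B`).
-/

open TensorProduct

noncomputable section

namespace Vale.Agent.P221X.VT

variable {H B B' B'' : Type*} [CommRing H] [CommRing B] [CommRing B'] [CommRing B'']

/-- `B` as an algebra over `H` through `χ`. -/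
def Via (_χ : H →+* B) : Type _ := B

instance (χ : H →+* B) : CommRing (Via χ) := inferInstanceAs (CommRing B)

/-- the structure homomorphism -/
def Via.hom (χ : H →+* B) : H →+* Via χ := χ

instance (χ : H →+* B) : Algebra H (Via χ) := (Via.hom χ).toAlgebra

/-- The base change `B ⊗_H M` along `χ`. -/
def BC (χ : H →+* B) (M : Type*) [AddCommGroup M] [Module H M] : Type _ := Via χ ⊗[H] M

namespace BC

variable {χ : H →+* B} {M M' M'' : Type*} [AddCommGroup M] [Module H M] [AddCommGroup M']
  [Module H M'] [AddCommGroup M''] [Module H M'']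

instance : AddCommGroup (BC χ M) := inferInstanceAs (AddCommGroup (Via χ ⊗[H] M))

instance : Module B (BC χ M) := inferInstanceAs (Module (Via χ) (Via χ ⊗[H] M))

variable (χ) in
/-- `m ↦ 1 ⊗ m` -/
def mk : M →+ BC χ M := (TensorProduct.mk H (Via χ) M 1).toAddMonoidHom

theorem smul_mk (b : B) (m : M) : b • mk χ m = ((show Via χ from b) ⊗ₜ[H] m : Via χ ⊗[H] M) := by
  change (show Via χ from b) • ((1 : Via χ) ⊗ₜ[H] m : Via χ ⊗[H] M) = _
  rw [TensorProduct.smul_tmul', smul_eq_mul, mul_one]

theorem mk_smul (h : H) (m : M) : mk χ (h • m) = χ h • mk χ m := by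
  rw [smul_mk]
  change ((1 : Via χ) ⊗ₜ[H] (h • m) : Via χ ⊗[H] M) = _
  rw [TensorProduct.tmul_smul, TensorProduct.smul_tmul', Algebra.smul_def, mul_one]
  rfl

@[elab_as_elim]
theorem ind {motive : BC χ M → Prop} (x : BC χ M) (zero : motive 0)
    (smul : ∀ (b : B) (m : M), motive (b • mk χ m))
    (add : ∀ x y, motive x → motive y → motive (x + y)) : motive x :=
  TensorProduct.induction_on (motive := motive) x zero
    (fun b m => (smul_mk (χ := χ) b m) ▸ smul b m) add

section lift

variable {N : Type*} [AddCommGroup N] [Module B' N]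

/-- the additive map under `lift` -/
def liftA (φ : B →+* B') (f : M →+ N) (hf : ∀ h m, f (h • m) = φ (χ h) • f m) : BC χ M →+ N :=
  TensorProduct.liftAddHom (R := H) (M := Via χ) (N := M)
    { toFun := fun b : B => (DistribSMul.toAddMonoidHom N (φ b)).comp f
      map_zero' := AddMonoidHom.ext fun m => by
        change φ (0 : B) • f m = 0
        rw [map_zero, zero_smul]
      map_add' := fun (b b' : B) => AddMonoidHom.ext fun m => by
        change φ (b + b') • f m = φ b • f m + φ b' • f m
        rw [map_add, add_smul] }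
    (fun h (b : B) m => by
      change φ (χ h * b) • f m = φ b • f (h • m)
      rw [hf, map_mul, mul_comm, mul_smul])

theorem liftA_smul_mk (φ : B →+* B') (f : M →+ N) (hf : ∀ h m, f (h • m) = φ (χ h) • f m)
    (b : B) (m : M) : liftA φ f hf (b • mk χ m) = φ b • f m := by
  rw [smul_mk]
  rfl

/-- The semilinear map out of the base change. -/
def lift (φ : B →+* B') (f : M →+ N) (hf : ∀ h m, f (h • m) = φ (χ h) • f m) :
    BC χ M →ₛₗ[φ] N where
  toFun := liftA φ f hf
  map_add' := map_add _
  map_smul' b x := by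
    induction x using ind with
    | zero => rw [smul_zero, map_zero, smul_zero]
    | smul c m => rw [← mul_smul, liftA_smul_mk, liftA_smul_mk, map_mul, mul_smul]
    | add x y hx hy => rw [smul_add, map_add, map_add, hx, hy, smul_add]

@[simp] theorem lift_mk (φ : B →+* B') (f : M →+ N) (hf : ∀ h m, f (h • m) = φ (χ h) • f m)
    (m : M) : lift φ f hf (mk χ m) = f m := by
  have h := liftA_smul_mk φ f hf 1 m
  rwa [one_smul, map_one, one_smul] at h

theorem hom_ext {φ : B →+* B'} {f g : BC χ M →ₛₗ[φ] N} (h : ∀ m, f (mk χ m) = g (mk χ m)) :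
    f = g := by
  refine LinearMap.ext fun x => ?_
  induction x using ind with
  | zero => rw [map_zero, map_zero]
  | smul b m => rw [LinearMap.map_smulₛₗ, LinearMap.map_smulₛₗ, h]
  | add x y hx hy => rw [map_add, map_add, hx, hy]

end lift

variable (χ) in
/-- functoriality in the module -/
def map (f : M →ₗ[H] M') : BC χ M →ₗ[B] BC χ M' :=
  lift (RingHom.id B) ((mk χ).comp f.toAddMonoidHom) fun h m => by
    change mk χ (f (h • m)) = χ h • mk χ (f m)
    rw [map_smul, mk_smul]

@[simp] theorem map_mk (f : M →ₗ[H] M') (m : M) : map χ f (mk χ m) = mk χ (f m) :=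
  lift_mk _ _ _ m

/-- change of the ring -/
def bc (φ : B →+* B') {χ' : H →+* B'} (h : φ.comp χ = χ') : BC χ M →ₛₗ[φ] BC χ' M :=
  lift φ (mk χ') fun z m => by rw [mk_smul, ← h, RingHom.comp_apply]

@[simp] theorem bc_mk (φ : B →+* B') {χ' : H →+* B'} (h : φ.comp χ = χ') (m : M) :
    bc φ h (mk χ m) = mk χ' m := lift_mk _ _ _ m

section lift2

variable {N : Type*} [AddCommGroup N] [Module B N]

/-- The bilinear map out of two base changes. -/
def lift₂ (f : M →+ M' →+ N) (h₁ : ∀ h m m', f (h • m) m' = χ h • f m m')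
    (h₂ : ∀ h m m', f m (h • m') = χ h • f m m') : BC χ M →ₗ[B] BC χ M' →ₗ[B] N :=
  lift (RingHom.id B)
    { toFun := fun m => lift (RingHom.id B) (f m) fun h m' => h₂ h m m'
      map_zero' := hom_ext fun m' => by
        rw [lift_mk, map_zero, AddMonoidHom.zero_apply, LinearMap.zero_apply]
      map_add' := fun m n => hom_ext fun m' => by
        rw [LinearMap.add_apply, lift_mk, lift_mk, lift_mk, map_add, AddMonoidHom.add_apply] }
    fun h m => hom_ext fun m' => by
      change lift (RingHom.id B) (f (h • m)) (fun z m' => h₂ z (h • m) m') (mk χ m') =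
        χ h • lift (RingHom.id B) (f m) (fun z m' => h₂ z m m') (mk χ m')
      rw [lift_mk, lift_mk, h₁]

@[simp] theorem lift₂_mk (f : M →+ M' →+ N) (h₁ : ∀ h m m', f (h • m) m' = χ h • f m m')
    (h₂ : ∀ h m m', f m (h • m') = χ h • f m m') (m : M) (m' : M') :
    lift₂ f h₁ h₂ (mk χ m) (mk χ m') = f m m' := by
  unfold lift₂
  rw [lift_mk]
  exact lift_mk (RingHom.id B) (f m) (fun h m' => h₂ h m m') m'

end lift2

/-- the comparison with the tensor product -/
def toTensor : BC χ M ≃+ Via χ ⊗[H] M := AddEquiv.refl _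

theorem map_eq_lTensor (f : M →ₗ[H] M') (x : BC χ M) :
    toTensor (map χ f x) = LinearMap.lTensor (Via χ) f (toTensor x) := by
  induction x using ind with
  | zero => rw [map_zero, map_zero, map_zero, map_zero]
  | smul b m =>
    rw [map_smul, map_mk, smul_mk, smul_mk]
    rfl
  | add x y hx hy => rw [map_add, map_add, map_add, map_add, hx, hy]

end BC

end Vale.Agent.P221X.VT
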