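import Vale.Agent.P221X.VT.Scl
import Vale.Agent.P221.H246.Ser
import Vale.Agent.P251.Z.KMU
import Vale.Agent.P251.F.LazWt
import Vale.Agent.P251.M.QOut

/-!
# P221, block VT: maps out of `π_{2*}(K ⊗ MU)` and `π_{2*}(K ⊗ MU ⊗ W)`

`K` is a commutative monoid under `R = MU`.

* `cls H u χ σ` : the homomorphism `π_{2*}(K ⊗ R) = (π_{2*} K)[b] ⟶ B` given by `χ` and the
  coefficients of the strict series `σ`; `ringHom_ext_inl`;
* `extInl` : the semilinear extension of a map out of `MP K W` to `MP (K ⊗ R) W`; `ind_inl`;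
* `law_scl`, `ser_scl` : laws and series of rescaled homomorphisms.
-/

open CategoryTheory MonoidalCategory Limits Pretriangulated MonObj

set_option linter.unusedSectionVars false

universe v u

noncomputable section

namespace Vale.Agent.P221X.VT

open Vale.Agent.P251 Vale.Agent.P251.T Vale.Agent.P251.M Vale.Agent.P251.M.EvenSpheres
  Vale.Agent.P251.S Vale.Agent.P251.F Vale.Agent.P251.I Vale.Agent.P251.Z Vale.Agent.P251.X
  Vale.Agent.P257

variable {T : Type u} [Category.{v} T] [Preadditive T] [HasZeroObject T]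
    [HasShift T ℤ] [∀ n : ℤ, (shiftFunctor T n).Additive] [Pretriangulated T] [IsTriangulated T]
    [MonoidalCategory T] [SymmetricCategory T] [TensorTriangulated T] [MonoidalClosed T]
    [HasCoproducts.{0} T] [HasProducts.{0} T] [StableCat T] {D : MUData T}
  {Fc : SpaceFunctor T} {e : Fc.S.obj CCF ≅ (stdEven T).L}
  {K : T} [MonObj K] [IsCommMonObj K] {B B' : Type*} [CommRing B] [CommRing B']

/-! ### Series -/

theorem ser_congr {u u' w w' : D.R ⟶ K} [IsMonHom u] [IsMonHom u'] [IsMonHom w] [IsMonHom w']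
    (h : u = u') (h' : w = w') : H80.ser u w = H80.ser u' w' := by
  subst h h'
  rfl

theorem ser_bK (u : D.R ⟶ K) [IsMonHom u] :
    H80.ser (u ≫ inlM K D.R) (inrM K D.R) = strictMk (bK D u) := by
  rw [← map_strictIso, H80.ser,
    HRing_map_congr (H80.eq_pairM (D.v_zero_toKR u) (D.v_one_toKR u)).symm]

theorem ser_c_bK (u : D.R ⟶ K) [IsMonHom u] (i : ℕ) :
    (H80.ser (u ≫ inlM K D.R) (inrM K D.R)).c (i + 1) = bK D u i := by
  rw [ser_bK, c_succ_strictMk]

/-- the series of a rescaled homomorphism -/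
theorem ser_scl (a : Bˣ) (θ : HRing (stdEven T) K →+* B) (u w : D.R ⟶ K) [IsMonHom u]
    [IsMonHom w] : InvSeries.map (scl a θ) (H80.ser u w) =
      (InvSeries.lin a)⁻¹ * InvSeries.map θ (H80.ser u w) * InvSeries.lin a := by
  refine InvSeries.ext_c fun n => ?_
  rw [H80.c_conj_lin, InvSeries.c_map, InvSeries.c_map]
  rcases n with _ | n
  · rw [mem_strict.1 (H80.ser_strict u w), map_one, map_one, pow_zero, _root_.one_mul]
  · obtain ⟨x, hx⟩ := P221.H246.isHomog_ser u w n
    rw [hx, scl_of, zpow_natCast, Units.val_pow_eq_pow_val]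

theorem coeff_law_homog {n i j : ℕ} (h : i + j = n + 1) : ∃ x : (stdEven T).S (n : ℤ) ⟶ D.R,
    MvPowerSeries.coeff (e2 i j) D.law.ps = HRing.of (stdEven T) D.R n x := by
  obtain ⟨a, ha⟩ := D.ev_wt 0 _ _ (Laz.isWt_C_coeff n i j h)
  refine ⟨a ≫ amOne D.R, ?_⟩
  rw [← HRing.map_of, ← ha, MUData.law, MUData.law1, Law.map_ps, MvPowerSeries.coeff_map,
    Law.map_ps, MvPowerSeries.coeff_map]
  rfl

/-- the law of a rescaled homomorphism -/
theorem law_scl (a : Bˣ) (χ : HRing (stdEven T) D.R →+* B) :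
    D.law.map (scl a χ) = (InvSeries.lin a)⁻¹ • D.law.map χ := by
  refine H80.ext_lin_inv_smul a fun d => ?_
  rw [Law.map_ps, Law.map_ps, MvPowerSeries.coeff_map, MvPowerSeries.coeff_map]
  have hd : d = e2 (d 0) (d 1) := by
    ext i
    fin_cases i <;> simp [e2]
  rcases hn : d 0 + d 1 with _ | n
  · have h0 : d = 0 := by
      ext i
      fin_cases i
      · change d 0 = 0
        omega
      · change d 1 = 0
        omega
    have h1 := D.law.toFG.zero_constantCoeff
    rw [h0, MvPowerSeries.coeff_zero_eq_constantCoeff_apply, h1, map_zero (scl a χ), map_zero χ,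
      mul_zero, mul_zero]
  · obtain ⟨x, hx⟩ := coeff_law_homog (D := D) hn
    have h2 : d.degree = n + 1 := by rw [hd, degree_e2, hn]
    rw [h2, hd, hx, scl_of, zpow_natCast, Units.val_pow_eq_pow_val, pow_succ', _root_.mul_assoc]

variable (H : MUUniv e D) (u : D.R ⟶ K) [IsMonHom u]

/-! ### Ring homomorphisms -/

/-- The homomorphism `π_{2*}(K ⊗ R) ⟶ B` which is `χ` on `π_{2*} K` and sends the universal strict
series to `σ`. -/
def cls (χ : HRing (stdEven T) K →+* B) (σ : InvSeries B) : HRing (stdEven T) (K ⊗ D.R) →+* B :=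
  (MvPolynomial.eval₂Hom χ fun i => σ.c (i + 1)).comp
    (RingEquiv.ofBijective (epsH (bK D u)) (epsK_bijective u H)).symm.toRingHom

theorem cls_eps (χ : HRing (stdEven T) K →+* B) (σ : InvSeries B)
    (f : MvPolynomial ℕ (HRing (stdEven T) K)) :
    cls H u χ σ (epsH (bK D u) f) = MvPolynomial.eval₂Hom χ (fun i => σ.c (i + 1)) f := by
  unfold cls
  rw [RingHom.comp_apply]
  congr 1
  exact (RingEquiv.ofBijective (epsH (bK D u)) (epsK_bijective u H)).symm_apply_apply f

theorem cls_inl (χ : HRing (stdEven T) K →+* B) (σ : InvSeries B) :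
    (cls H u χ σ).comp (HRing.map (inlM K D.R)) = χ := by
  refine RingHom.ext fun h => ?_
  rw [RingHom.comp_apply, ← epsH_C (bK D u), cls_eps, MvPolynomial.eval₂Hom_C]

theorem cls_bK (χ : HRing (stdEven T) K →+* B) (σ : InvSeries B) (i : ℕ) :
    cls H u χ σ (bK D u i) = σ.c (i + 1) := by
  rw [← epsH_X (bK D u), cls_eps, MvPolynomial.eval₂Hom_X']

theorem cls_ser (χ : HRing (stdEven T) K →+* B) {σ : InvSeries B} (hσ : σ ∈ strict B) :
    InvSeries.map (cls H u χ σ) (H80.ser (u ≫ inlM K D.R) (inrM K D.R)) = σ := by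
  rw [ser_bK, map_strictMk]
  simp only [cls_bK]
  exact strictMk_c hσ

include H in
theorem ringHom_ext_inl {θ θ' : HRing (stdEven T) (K ⊗ D.R) →+* B}
    (h : θ.comp (HRing.map (inlM K D.R)) = θ'.comp (HRing.map (inlM K D.R)))
    (h' : InvSeries.map θ (H80.ser (u ≫ inlM K D.R) (inrM K D.R)) =
      InvSeries.map θ' (H80.ser (u ≫ inlM K D.R) (inrM K D.R))) : θ = θ' := by
  have key : θ.comp (epsH (bK D u)) = θ'.comp (epsH (bK D u)) := by
    apply MvPolynomial.ringHom_ext
    · intro z
      rw [RingHom.comp_apply, RingHom.comp_apply, epsH_C]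
      exact DFunLike.congr_fun h z
    · intro i
      rw [RingHom.comp_apply, RingHom.comp_apply, epsH_X, ← ser_c_bK, ← InvSeries.c_map,
        ← InvSeries.c_map, h']
  refine RingHom.ext fun g => ?_
  obtain ⟨f, rfl⟩ := (epsK_bijective u H).2 g
  exact DFunLike.congr_fun key f

/-! ### Modules -/

variable (D) in
/-- the monomials in the `b_i` -/
def bMon (a : ℕ →₀ ℕ) : HRing (stdEven T) (K ⊗ D.R) := a.prod fun i m => bK D u i ^ m

include H in
theorem span_eps (g : HRing (stdEven T) (K ⊗ D.R)) : ∃ x : (ℕ →₀ ℕ) →₀ HRing (stdEven T) K,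
    g = x.sum fun a h => HRing.map (inlM K D.R) h * bMon D u a := by
  obtain ⟨f, rfl⟩ := (epsK_bijective u H).2 g
  refine ⟨Finsupp.onFinset f.support (fun a => f.coeff a) (fun a ha =>
      MvPolynomial.mem_support_iff.2 ha), ?_⟩
  rw [Finsupp.onFinset_sum _ (fun a => by rw [map_zero, zero_mul])]
  conv_lhs => rw [f.as_sum, map_sum]
  exact Finset.sum_congr rfl fun a _ => epsH_monomial _ _ _

include H in
theorem bij_MP (W : T) : Function.Bijective fun x : (ℕ →₀ ℕ) →₀ MP (stdEven T) K W =>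
    x.sum fun a m => bMon D u a • MP.push (stdEven T) (inlM K D.R) W m := by
  obtain ⟨b, -, hb⟩ := D.exists_basis_of u H
  have h := MP.bij_basis b isSphere_std W
  have h1 : ∀ a, HRing.of (stdEven T) (K ⊗ D.R) (b.k a) (b.w a) = bMon D u a := fun a => by
    rw [hb, class_bK]
    rfl
  simp only [h1] at h
  exact h

/-- `(ℕ →₀ ℕ) →₀ MP K W ≃ MP (K ⊗ R) W` -/
def eqv (W : T) : ((ℕ →₀ ℕ) →₀ MP (stdEven T) K W) ≃+ MP (stdEven T) (K ⊗ D.R) W :=
  AddEquiv.ofBijective (Finsupp.liftAddHom fun a =>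
    (DistribSMul.toAddMonoidHom _ (bMon D u a)).comp (MP.push (stdEven T) (inlM K D.R) W))
    (bij_MP H u W)

theorem eqv_single {W : T} (a : ℕ →₀ ℕ) (m : MP (stdEven T) K W) :
    eqv H u W (Finsupp.single a m) = bMon D u a • MP.push (stdEven T) (inlM K D.R) W m := by
  change Finsupp.liftAddHom (fun a => (DistribSMul.toAddMonoidHom _ (bMon D u a)).comp
    (MP.push (stdEven T) (inlM K D.R) W)) (Finsupp.single a m) = _
  rw [Finsupp.liftAddHom_apply_single]
  rfl

include H u in
theorem ind_inl {W : T} {motive : MP (stdEven T) (K ⊗ D.R) W → Prop}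
    (x : MP (stdEven T) (K ⊗ D.R) W) (zero : motive 0)
    (smul : ∀ (g : HRing (stdEven T) (K ⊗ D.R)) (m : MP (stdEven T) K W),
      motive (g • MP.push (stdEven T) (inlM K D.R) W m))
    (add : ∀ x y, motive x → motive y → motive (x + y)) : motive x := by
  obtain ⟨y, rfl⟩ := (eqv H u W).surjective x
  induction y using Finsupp.induction_linear with
  | zero => rw [map_zero]; exact zero
  | add y y' hy hy' => rw [map_add]; exact add _ _ hy hy'
  | single a m => rw [eqv_single]; exact smul _ _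

variable {W : T} {N : Type*} [AddCommGroup N] [Module B N]

include H u in
/-- additive maps which agree on the elements `g • inl m` are equal -/
theorem hom_ext_inl {N : Type*} [AddCommGroup N] {f g : MP (stdEven T) (K ⊗ D.R) W →+ N}
    (h : ∀ (z : HRing (stdEven T) (K ⊗ D.R)) (m : MP (stdEven T) K W),
      f (z • MP.push (stdEven T) (inlM K D.R) W m) =
        g (z • MP.push (stdEven T) (inlM K D.R) W m)) : f = g := by
  refine AddMonoidHom.ext fun x => ?_
  refine ind_inl H u (motive := fun x => f x = g x) x ?_ h ?_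
  · rw [map_zero, map_zero]
  · intro x y hx hy
    rw [map_add, map_add, hx, hy]

/-- The extension of `f : MP K W ⟶ N` to `MP (K ⊗ R) W`, semilinear over `θ`. -/
def extInl (θ : HRing (stdEven T) (K ⊗ D.R) →+* B) (f : MP (stdEven T) K W →+ N) :
    MP (stdEven T) (K ⊗ D.R) W →+ N :=
  (Finsupp.liftAddHom fun a => (DistribSMul.toAddMonoidHom N (θ (bMon D u a))).comp f).comp
    (eqv H u W).symm.toAddMonoidHom

theorem extInl_basis (θ : HRing (stdEven T) (K ⊗ D.R) →+* B) (f : MP (stdEven T) K W →+ N)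
    (a : ℕ →₀ ℕ) (m : MP (stdEven T) K W) :
    extInl H u θ f (bMon D u a • MP.push (stdEven T) (inlM K D.R) W m) =
      θ (bMon D u a) • f m := by
  rw [← eqv_single H]
  unfold extInl
  rw [AddMonoidHom.comp_apply]
  change Finsupp.liftAddHom _ ((eqv H u W).symm (eqv H u W _)) = _
  rw [AddEquiv.symm_apply_apply, Finsupp.liftAddHom_apply_single]
  rfl

variable {θ : HRing (stdEven T) (K ⊗ D.R) →+* B} {f : MP (stdEven T) K W →+ N}
  (hf : ∀ h m, f (h • m) = θ (HRing.map (inlM K D.R) h) • f m)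

include hf

theorem extInl_smul_push (g : HRing (stdEven T) (K ⊗ D.R)) (m : MP (stdEven T) K W) :
    extInl H u θ f (g • MP.push (stdEven T) (inlM K D.R) W m) = θ g • f m := by
  obtain ⟨x, rfl⟩ := span_eps H u g
  rw [Finsupp.sum, Finset.sum_smul, map_sum, map_sum, Finset.sum_smul]
  refine Finset.sum_congr rfl fun a _ => ?_
  have h1 : (HRing.map (inlM K D.R) (x a) * bMon D u a) • MP.push (stdEven T) (inlM K D.R) W m =
      bMon D u a • MP.push (stdEven T) (inlM K D.R) W (x a • m) := by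
    rw [mul_comm, mul_smul, MP.push_smul]
  rw [h1, extInl_basis, hf, map_mul, mul_comm, mul_smul]

theorem extInl_push (m : MP (stdEven T) K W) :
    extInl H u θ f (MP.push (stdEven T) (inlM K D.R) W m) = f m := by
  have h := extInl_smul_push H u hf 1 m
  rwa [one_smul, map_one, one_smul] at h

theorem extInl_smul (g : HRing (stdEven T) (K ⊗ D.R)) (x : MP (stdEven T) (K ⊗ D.R) W) :
    extInl H u θ f (g • x) = θ g • extInl H u θ f x := by
  refine ind_inl H u (motive := fun x => extInl H u θ f (g • x) = θ g • extInl H u θ f x) x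
    ?_ ?_ ?_
  · rw [smul_zero, map_zero, smul_zero]
  · intro z m
    rw [← mul_smul, extInl_smul_push H u hf, extInl_smul_push H u hf, map_mul, mul_smul]
  · intro x y hx hy
    rw [smul_add, map_add, map_add, hx, hy, smul_add]

end Vale.Agent.P221X.VT
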