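import Vale.Agent.P251.X.Push
import Vale.Agent.P251.X.CrossM

/-!
# P221, block VT: rescaling by a unit, `MP.push` and products

* `scl a θ` : the homomorphism `x ↦ a ^ (deg x) θ x` out of a homotopy ring;
* `sclM a f` : the additive map `m ↦ a ^ (deg m) • f m` out of `MP E K W`;
* `push_cross`, `push_gen`.
-/

open CategoryTheory MonoidalCategory Limits MonObj

set_option linter.unusedSectionVars false

universe v u

noncomputable section

namespace Vale.Agent.P221X.VT

open Vale.Agent.P251 Vale.Agent.P251.M Vale.Agent.P251.M.EvenSpheres Vale.Agent.P251.S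
  Vale.Agent.P251.X

variable {T : Type u} [Category.{v} T] [Preadditive T] [MonoidalCategory T]
  [MonoidalPreadditive T] [SymmetricCategory T] {E : EvenSpheres T} {K K' : T} [MonObj K]
  [MonObj K'] {B B' : Type*} [CommRing B] [CommRing B']

/-! ### Rings -/

theorem of_add' (n : ℤ) (x y : E.S n ⟶ K) :
    HRing.of E K n (x + y) = HRing.of E K n x + HRing.of E K n y :=
  (DirectSum.of (E.Gr K) n).map_add _ _

theorem of_zero' (n : ℤ) : HRing.of E K n (0 : E.S n ⟶ K) = 0 :=
  (DirectSum.of (E.Gr K) n).map_zero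

/-- The rescaled homomorphism `x ↦ a ^ (deg x) θ x`. -/
def scl (a : Bˣ) (θ : HRing E K →+* B) : HRing E K →+* B :=
  DirectSum.toSemiring (fun n =>
    { toFun := fun x : E.S n ⟶ K => ((a ^ n : Bˣ) : B) * θ (HRing.of E K n x)
      map_zero' := by rw [of_zero', map_zero, mul_zero]
      map_add' := fun x y => by rw [of_add', map_add, mul_add] })
    (by
      change ((a ^ (0 : ℤ) : Bˣ) : B) * θ (HRing.of E K 0 (E.zero.inv ≫ η[K])) = 1
      rw [of_one, map_one, zpow_zero, Units.val_one, _root_.mul_one])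
    (by
      intro m n x y
      change ((a ^ (m + n) : Bˣ) : B) * θ (HRing.of E K (m + n) (gmul rfl x y)) =
        (((a ^ m : Bˣ) : B) * θ (HRing.of E K m x)) * (((a ^ n : Bˣ) : B) * θ (HRing.of E K n y))
      rw [← of_mul_of, map_mul, zpow_add, Units.val_mul]
      ring)

theorem scl_of (a : Bˣ) (θ : HRing E K →+* B) (n : ℤ) (x : E.S n ⟶ K) :
    scl a θ (HRing.of E K n x) = ((a ^ n : Bˣ) : B) * θ (HRing.of E K n x) :=
  DirectSum.toSemiring_of _ _ _ _ _

theorem scl_one (θ : HRing E K →+* B) : scl 1 θ = θ :=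
  HRing.ringHom_ext fun n x => by rw [scl_of, one_zpow, Units.val_one, _root_.one_mul]

theorem scl_scl (a b : Bˣ) (θ : HRing E K →+* B) : scl a (scl b θ) = scl (a * b) θ :=
  HRing.ringHom_ext fun n x => by
    rw [scl_of, scl_of, scl_of, mul_zpow, Units.val_mul, _root_.mul_assoc]

theorem scl_comp_map (a : Bˣ) (θ : HRing E K' →+* B) (f : K ⟶ K') [IsMonHom f] :
    (scl a θ).comp (HRing.map f) = scl a (θ.comp (HRing.map f)) :=
  HRing.ringHom_ext fun n x => by
    rw [RingHom.comp_apply, HRing.map_of, scl_of, scl_of, RingHom.comp_apply, HRing.map_of]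

theorem comp_scl (φ : B →+* B') (a : Bˣ) (θ : HRing E K →+* B) :
    φ.comp (scl a θ) = scl (Units.map (φ : B →* B') a) (φ.comp θ) :=
  HRing.ringHom_ext fun n x => by
    rw [RingHom.comp_apply, scl_of, scl_of, map_mul, ← map_zpow, Units.coe_map]
    rfl

/-! ### Modules -/

variable {W W' : T} {N N' : Type*} [AddCommGroup N] [Module B N] [AddCommGroup N'] [Module B' N']

/-- The rescaled map `m ↦ a ^ (deg m) • f m`. -/
def sclM (a : Bˣ) (f : MP E K W →+ N) : MP E K W →+ N :=
  MP.lift fun j =>
    { toFun := fun x => ((a ^ j : Bˣ) : B) • f (MP.of E K W j x)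
      map_zero' := by rw [map_zero, map_zero, smul_zero]
      map_add' := fun x y => by rw [map_add, map_add, smul_add] }

theorem sclM_of (a : Bˣ) (f : MP E K W →+ N) (j : ℤ) (x : E.S j ⟶ K ⊗ W) :
    sclM a f (MP.of E K W j x) = ((a ^ j : Bˣ) : B) • f (MP.of E K W j x) :=
  MP.lift_of (W := W) (B := N) (fun j =>
    { toFun := fun x => ((a ^ j : Bˣ) : B) • f (MP.of E K W j x)
      map_zero' := by rw [map_zero, map_zero, smul_zero]
      map_add' := fun x y => by rw [map_add, map_add, smul_add] }) j x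

theorem sclM_one (f : MP E K W →+ N) : sclM (1 : Bˣ) f = f :=
  MP.hom_ext fun j x => by rw [sclM_of, one_zpow, Units.val_one, one_smul]

theorem sclM_smul (a : Bˣ) (f : MP E K W →+ N) (θ : HRing E K →+* B)
    (hf : ∀ h m, f (h • m) = θ h • f m) (h : HRing E K) (m : MP E K W) :
    sclM a f (h • m) = scl a θ h • sclM a f m := by
  induction h using DirectSum.induction_on with
  | zero => rw [zero_smul, map_zero, map_zero, zero_smul]
  | of i z =>
    induction m using MP.ind with
    | zero => rw [smul_zero, map_zero, smul_zero]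
    | of j x =>
      change sclM a f (HRing.of E K i z • MP.of E K W j x) =
        scl a θ (HRing.of E K i z) • sclM a f (MP.of E K W j x)
      rw [scl_of, sclM_of, MP.smul_of (k := i + j) rfl, sclM_of, ← MP.smul_of (k := i + j) rfl, hf,
        zpow_add, Units.val_mul, smul_smul, smul_smul]
      congr 1
      ring
    | add x y hx hy => rw [smul_add, map_add, map_add, hx, hy, smul_add]
  | add z z' hz hz' => rw [add_smul, map_add, hz, hz', map_add, add_smul]

theorem sclM_push (a : Bˣ) (f : MP E K' W →+ N) (g : K ⟶ K') (m : MP E K W) :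
    sclM a f (MP.push E g W m) = sclM a (f.comp (MP.push E g W)) m := by
  induction m using MP.ind with
  | zero => rw [map_zero, map_zero, map_zero]
  | of j x => rw [MP.push_of, sclM_of, sclM_of, AddMonoidHom.comp_apply, MP.push_of]
  | add x y hx hy => rw [map_add, map_add, hx, hy, map_add]

/-! ### `push` and products -/

theorem ten_push (f : K ⟶ K') [IsMonHom f] (X Y : T) :
    FM.ten K X Y ≫ f ▷ (X ⊗ Y) = ((f ▷ X) ⊗ₘ (f ▷ Y)) ≫ FM.ten K' X Y := by
  unfold FM.ten
  rw [Category.assoc, ← comp_whiskerRight, IsMonHom.mul_hom, comp_whiskerRight,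
    ← tensorHom_id f X, ← tensorHom_id f Y, reassoc_of% tensorμ_natural f (𝟙 X) f (𝟙 Y),
    id_tensorHom_id, tensorHom_id]

theorem push_cross (f : K ⟶ K') [IsMonHom f] {X Y : T} (x : MP E K X) (y : MP E K Y) :
    MP.push E f (X ⊗ Y) (MP.cross E K X Y x y) =
      MP.cross E K' X Y (MP.push E f X x) (MP.push E f Y y) := by
  induction x, y using MP.ind₂ with
  | zl y => simp only [map_zero, AddMonoidHom.zero_apply]
  | zr x => simp only [map_zero]
  | oo m a n b =>
    rw [MP.cross_of (q := m + n) rfl, MP.push_of, MP.push_of, MP.push_of,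
      MP.cross_of (q := m + n) rfl]
    congr 1
    unfold crossG
    rw [ext_comp, Category.assoc, Category.assoc, ten_push]
  | al x x' y h h' => simp only [map_add, AddMonoidHom.add_apply, h, h']
  | ar x y y' h h' => simp only [map_add, h, h']

theorem unit_push (f : K ⟶ K') [IsMonHom f] (X : T) : FM.unit K X ≫ f ▷ X = FM.unit K' X := by
  unfold FM.unit
  rw [Category.assoc, ← comp_whiskerRight, IsMonHom.one_hom]

theorem push_gen (f : K ⟶ K') [IsMonHom f] (j : ℤ) :
    MP.push E f (E.S j) (MP.gen E K j) = MP.gen E K' j := by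
  unfold MP.gen
  rw [MP.push_of, unit_push]

theorem push_one (f : K ⟶ K') [IsMonHom f] :
    MP.push E f (𝟙_ T) (MP.one E K) = MP.one E K' := by
  unfold MP.one
  rw [MP.push_of, Category.assoc, unit_push]

end Vale.Agent.P221X.VT
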