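import Vale.Agent.P221X.VT.V
import Vale.Agent.P221X.VT.Ext

/-!
# P221, block VT: transport of `V χ W` along a point of `π_{2*}(MU ⊗ MU)`

`θ : π_{2*}(R ⊗ R) ⟶ B'` with `θ ∘ inl = χ'`.

* `Th H θ χ' W : MP (R ⊗ R) W →+ V χ' W`, `g • inl m ↦ θ g • (1 ⊗ m)`;
* `tr H φ θ a h₀ h₁ W : V χ W →ₛₗ[φ] V χ' W`, `1 ⊗ m ↦ a ^ (deg m) • Th (inr m)`, if
  `scl a (θ ∘ inr) = φ ∘ χ`;
* `map_tr`, `tr_cross`, `tr_gen`, `tr_tr` (composition), `tr_counit`.
-/

open CategoryTheory MonoidalCategory Limits Pretriangulated MonObj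

set_option linter.unusedSectionVars false

universe v u

noncomputable section

namespace Vale.Agent.P221X.VT

open Vale.Agent.P251 Vale.Agent.P251.T Vale.Agent.P251.M Vale.Agent.P251.M.EvenSpheres
  Vale.Agent.P251.S Vale.Agent.P251.F Vale.Agent.P251.I Vale.Agent.P251.Z Vale.Agent.P251.X
  Vale.Agent.P257

variable {T : Type u} [Category.{v} T] [Preadditive T] [HasZeroObject T]
    [HasShift T ℤ] [∀ n : ℤ, (shiftFunctor T n).Additive] [Pretriangulated T] [IsTriangulated T]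
    [MonoidalCategory T] [SymmetricCategory T] [TensorTriangulated T] [MonoidalClosed T]
    [HasCoproducts.{0} T] [HasProducts.{0} T] [StableCat T] {D : MUData T}
  {Fc : SpaceFunctor T} {e : Fc.S.obj CCF ≅ (stdEven T).L}
  {B B' B'' : Type*} [CommRing B] [CommRing B'] [CommRing B''] (H : MUUniv e D)

variable (D) in
/-- the left unit on homotopy rings -/
abbrev ηL : HRing (stdEven T) D.R →+* HRing (stdEven T) (D.R ⊗ D.R) := HRing.map (inlM D.R D.R)

variable (D) in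
/-- the right unit on homotopy rings -/
abbrev ηR : HRing (stdEven T) D.R →+* HRing (stdEven T) (D.R ⊗ D.R) := HRing.map (inrM D.R D.R)

variable (D) in
/-- the left unit on `MP` -/
abbrev pL (W : T) : MP (stdEven T) D.R W →+ MP (stdEven T) (D.R ⊗ D.R) W :=
  MP.push (stdEven T) (inlM D.R D.R) W

variable (D) in
/-- the right unit on `MP` -/
abbrev pR (W : T) : MP (stdEven T) D.R W →+ MP (stdEven T) (D.R ⊗ D.R) W :=
  MP.push (stdEven T) (inrM D.R D.R) W

variable (D) in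
/-- the universal strict isomorphism from the left law to the right law -/
def uSer : InvSeries (HRing (stdEven T) (D.R ⊗ D.R)) := H80.ser (inlM D.R D.R) (inrM D.R D.R)

theorem uSer_eq : uSer D = H80.ser (𝟙 D.R ≫ inlM D.R D.R) (inrM D.R D.R) :=
  ser_congr (Category.id_comp _).symm rfl

theorem uSer_smul : uSer D • D.law.map (ηL D) = D.law.map (ηR D) := H80.ser_smul _ _

theorem uSer_c (i : ℕ) : (uSer D).c (i + 1) = bK D (𝟙 D.R) i := by rw [uSer_eq, ser_c_bK]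

theorem map_uSer {K : T} [MonObj K] [IsCommMonObj K] (f : D.R ⊗ D.R ⟶ K) [IsMonHom f] :
    InvSeries.map (HRing.map f) (uSer D) = H80.ser (inlM D.R D.R ≫ f) (inrM D.R D.R ≫ f) :=
  (H80.ser_comp f _ _).symm

include H in
theorem ringHom_extG {θ θ' : HRing (stdEven T) (D.R ⊗ D.R) →+* B}
    (h : θ.comp (ηL D) = θ'.comp (ηL D))
    (h' : InvSeries.map θ (uSer D) = InvSeries.map θ' (uSer D)) : θ = θ' :=
  ringHom_ext_inl H (𝟙 D.R) h (by rwa [← uSer_eq])

/-! ### The coordinate `Th` -/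

section Th

/-- `g • inl m ↦ θ g • (1 ⊗ m)` -/
def Th (θ : HRing (stdEven T) (D.R ⊗ D.R) →+* B) (χ : HRing (stdEven T) D.R →+* B) (W : T) :
    MP (stdEven T) (D.R ⊗ D.R) W →+ V χ W :=
  extInl H (𝟙 D.R) θ (V.mk χ W)

variable {θ : HRing (stdEven T) (D.R ⊗ D.R) →+* B} {χ : HRing (stdEven T) D.R →+* B}
  (h : θ.comp (ηL D) = χ) {W : T}

include h

theorem mk_smul_inl (z : HRing (stdEven T) D.R) (m : MP (stdEven T) D.R W) :
    V.mk χ W (z • m) = θ (HRing.map (inlM D.R D.R) z) • V.mk χ W m := by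
  rw [V.mk_smul, ← h]
  rfl

theorem Th_smul_pL (g : HRing (stdEven T) (D.R ⊗ D.R)) (m : MP (stdEven T) D.R W) :
    Th H θ χ W (g • pL D W m) = θ g • V.mk χ W m :=
  extInl_smul_push H (𝟙 D.R) (mk_smul_inl h) g m

theorem Th_pL (m : MP (stdEven T) D.R W) : Th H θ χ W (pL D W m) = V.mk χ W m :=
  extInl_push H (𝟙 D.R) (mk_smul_inl h) m

theorem Th_smul (g : HRing (stdEven T) (D.R ⊗ D.R)) (x : MP (stdEven T) (D.R ⊗ D.R) W) :
    Th H θ χ W (g • x) = θ g • Th H θ χ W x :=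
  extInl_smul H (𝟙 D.R) (mk_smul_inl h) g x

theorem map_Th {X Y : T} (f : X ⟶ Y) (x : MP (stdEven T) (D.R ⊗ D.R) X) :
    V.map χ f (Th H θ χ X x) = Th H θ χ Y (MP.map (stdEven T) (D.R ⊗ D.R) f x) := by
  refine ind_inl H (𝟙 D.R) (motive := fun x => V.map χ f (Th H θ χ X x) =
    Th H θ χ Y (MP.map (stdEven T) (D.R ⊗ D.R) f x)) x ?_ ?_ ?_
  · simp only [map_zero]
  · intro g m
    rw [Th_smul_pL H h, map_smul, map_smul, MP.map_push, Th_smul_pL H h, V.map_mk]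
  · intro x y hx hy
    simp only [map_add, hx, hy]

theorem Th_cross {X Y : T} (x : MP (stdEven T) (D.R ⊗ D.R) X) (y : MP (stdEven T) (D.R ⊗ D.R) Y) :
    Th H θ χ (X ⊗ Y) (MP.cross (stdEven T) (D.R ⊗ D.R) X Y x y) =
      V.cross χ X Y (Th H θ χ X x) (Th H θ χ Y y) := by
  refine ind_inl H (𝟙 D.R) (motive := fun x =>
    Th H θ χ (X ⊗ Y) (MP.cross (stdEven T) (D.R ⊗ D.R) X Y x y) =
      V.cross χ X Y (Th H θ χ X x) (Th H θ χ Y y)) x ?_ ?_ ?_
  · simp only [map_zero, AddMonoidHom.zero_apply, LinearMap.zero_apply]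
  · intro g m
    refine ind_inl H (𝟙 D.R) (motive := fun y =>
      Th H θ χ (X ⊗ Y) (MP.cross (stdEven T) (D.R ⊗ D.R) X Y (g • pL D X m) y) =
        V.cross χ X Y (Th H θ χ X (g • pL D X m)) (Th H θ χ Y y)) y ?_ ?_ ?_
    · simp only [map_zero]
    · intro g' m'
      rw [MP.cross_smul_left, MP.cross_smul_right, ← push_cross, ← mul_smul, Th_smul_pL H h,
        Th_smul_pL H h, Th_smul_pL H h, map_smul, map_smul, LinearMap.smul_apply, V.cross_mk,
        map_mul, mul_comm, mul_smul]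
    · intro y y' hy hy'
      simp only [map_add, hy, hy']
  · intro x x' hx hx'
    simp only [map_add, AddMonoidHom.add_apply, LinearMap.add_apply, hx, hx']

end Th

/-! ### The transport -/

section tr

variable {χ : HRing (stdEven T) D.R →+* B} {χ' : HRing (stdEven T) D.R →+* B'}
  (φ : B →+* B') (θ : HRing (stdEven T) (D.R ⊗ D.R) →+* B') (a : B'ˣ)
  (h₀ : θ.comp (ηL D) = χ') (h₁ : scl a (θ.comp (ηR D)) = φ.comp χ)

/-- `1 ⊗ m ↦ a ^ (deg m) • Th (inr m)` -/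
def tr (W : T) : V χ W →ₛₗ[φ] V χ' W :=
  BC.lift φ (sclM a ((Th H θ χ' W).comp (pR D W))) fun z m => by
    rw [sclM_smul a _ (θ.comp (ηR D)) (fun z m => by
      rw [AddMonoidHom.comp_apply, AddMonoidHom.comp_apply, MP.push_smul, Th_smul H h₀]
      rfl), h₁]
    rfl

theorem tr_mk {W : T} (m : MP (stdEven T) D.R W) :
    tr H φ θ a h₀ h₁ W (V.mk χ W m) = sclM a ((Th H θ χ' W).comp (pR D W)) m :=
  BC.lift_mk _ _ _ m

theorem tr_of {W : T} (j : ℤ) (x : (stdEven T).S j ⟶ D.R ⊗ W) :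
    tr H φ θ a h₀ h₁ W (V.of χ W j x) =
      ((a ^ j : B'ˣ) : B') • Th H θ χ' W (pR D W (MP.of (stdEven T) D.R W j x)) := by
  rw [tr_mk, sclM_of]
  rfl

theorem map_tr {X Y : T} (f : X ⟶ Y) (x : V χ X) :
    V.map χ' f (tr H φ θ a h₀ h₁ X x) = tr H φ θ a h₀ h₁ Y (V.map χ f x) := by
  induction x using V.ind with
  | zero => simp only [map_zero]
  | smul b j x =>
    rw [LinearMap.map_smulₛₗ, map_smul, map_smul, LinearMap.map_smulₛₗ, V.map_of, tr_of, tr_of,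
      map_smul, map_Th H h₀, MP.map_push, MP.map_of]
  | add x y hx hy => simp only [map_add, hx, hy]

theorem tr_cross {X Y : T} (x : V χ X) (y : V χ Y) :
    tr H φ θ a h₀ h₁ (X ⊗ Y) (V.cross χ X Y x y) =
      V.cross χ' X Y (tr H φ θ a h₀ h₁ X x) (tr H φ θ a h₀ h₁ Y y) := by
  induction x using V.ind with
  | zero => simp only [map_zero, LinearMap.zero_apply]
  | add x x' hx hx' => simp only [map_add, LinearMap.add_apply, hx, hx']
  | smul b i x =>
    induction y using V.ind with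
    | zero => simp only [map_zero]
    | add y y' hy hy' => simp only [map_add, hy, hy']
    | smul c j y =>
      simp only [map_smul, LinearMap.smul_apply, LinearMap.map_smulₛₗ]
      rw [V.cross_mk, MP.cross_of (q := i + j) rfl, tr_of, ← MP.cross_of (q := i + j) rfl,
        push_cross, Th_cross H h₀, tr_of, tr_of, map_smul, map_smul, LinearMap.smul_apply,
        zpow_add, Units.val_mul, mul_comm, mul_smul]

theorem tr_gen (j : ℤ) :
    tr H φ θ a h₀ h₁ _ (V.gen χ j) = ((a ^ j : B'ˣ) : B') • V.gen χ' j := by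
  have h1 : pR D _ (MP.gen (stdEven T) D.R j) = pL D _ (MP.gen (stdEven T) D.R j) := by
    rw [push_gen, push_gen]
  refine (tr_of H φ θ a h₀ h₁ j (FM.unit D.R _)).trans ?_
  change _ • Th H θ χ' _ (pR D _ (MP.gen (stdEven T) D.R j)) = _
  rw [h1, Th_pL H h₀]
  rfl

theorem tr_one : tr H φ θ a h₀ h₁ _ (V.one χ) = V.one χ' := by
  rw [← V.map_zero_inv_gen, ← map_tr, tr_gen, zpow_zero, Units.val_one, one_smul,
    V.map_zero_inv_gen]

/-- If `θ` factors through the multiplication the transport is a rescaling. -/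
theorem tr_counit (hθ : InvSeries.map θ (uSer D) = 1) {W : T} (j : ℤ)
    (x : (stdEven T).S j ⟶ D.R ⊗ W) :
    tr H φ θ a h₀ h₁ W (V.of χ W j x) = ((a ^ j : B'ˣ) : B') • V.of χ' W j x := by
  have h1 : θ = χ'.comp (HRing.map (descM (𝟙 D.R) (𝟙 D.R))) := by
    refine ringHom_extG H ?_ ?_
    · rw [h₀, RingHom.comp_assoc, ← HRing.map_comp, HRing_map_congr (inlM_descM _ _), HRing.map_id,
        RingHom.comp_id]
    · rw [hθ, ← InvSeries.map_map, map_uSer, ser_congr (inlM_descM _ _) (inrM_descM _ _),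
        H80.ser_self, map_one]
  have h2 : Th H θ χ' W = (V.mk χ' W).comp (MP.push (stdEven T) (descM (𝟙 D.R) (𝟙 D.R)) W) := by
    refine hom_ext_inl H (𝟙 D.R) fun z m => ?_
    rw [Th_smul_pL H h₀, AddMonoidHom.comp_apply, MP.push_smul, MP.push_push, inlM_descM,
      MP.push_id, V.mk_smul, h1]
    rfl
  rw [tr_of, h2, AddMonoidHom.comp_apply, MP.push_push, inrM_descM, MP.push_id]

end tr

/-! ### Composition -/

section comp

variable {χ : HRing (stdEven T) D.R →+* B} {χ' : HRing (stdEven T) D.R →+* B'}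
  {χ'' : HRing (stdEven T) D.R →+* B''}
  (φ₁ : B →+* B') (θ₁ : HRing (stdEven T) (D.R ⊗ D.R) →+* B') (a₁ : B'ˣ)
  (h₀ : θ₁.comp (ηL D) = χ') (h₁ : scl a₁ (θ₁.comp (ηR D)) = φ₁.comp χ)
  (φ₂ : B' →+* B'') (θ₂ : HRing (stdEven T) (D.R ⊗ D.R) →+* B'') (a₂ : B''ˣ)
  (k₀ : θ₂.comp (ηL D) = χ'') (k₁ : scl a₂ (θ₂.comp (ηR D)) = φ₂.comp χ')
  (φ₃ : B →+* B'') (θ₃ : HRing (stdEven T) (D.R ⊗ D.R) →+* B'') (a₃ : B''ˣ)
  (l₀ : θ₃.comp (ηL D) = χ'') (l₁ : scl a₃ (θ₃.comp (ηR D)) = φ₃.comp χ)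

/-- **Composition of transports.** -/
theorem tr_tr (hφ : ∀ b, φ₃ b = φ₂ (φ₁ b)) (ha : a₃ = Units.map (φ₂ : B' →* B'') a₁ * a₂)
    (hθ : InvSeries.map θ₃ (uSer D) = InvSeries.lin a₂ *
      InvSeries.map (φ₂.comp θ₁) (uSer D) * (InvSeries.lin a₂)⁻¹ * InvSeries.map θ₂ (uSer D))
    {W : T} (x : V χ W) :
    tr H φ₂ θ₂ a₂ k₀ k₁ W (tr H φ₁ θ₁ a₁ h₀ h₁ W x) = tr H φ₃ θ₃ a₃ l₀ l₁ W x := by
  -- the rescaled first arrow
  let θ' : HRing (stdEven T) (D.R ⊗ D.R) →+* B'' := scl a₂⁻¹ (φ₂.comp θ₁)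
  have e1 : θ'.comp (ηL D) = θ₂.comp (ηR D) := by
    rw [scl_comp_map, RingHom.comp_assoc, h₀, ← k₁, scl_scl, inv_mul_cancel, scl_one]
  have e2 : InvSeries.map θ' (uSer D) = InvSeries.lin a₂ *
      InvSeries.map (φ₂.comp θ₁) (uSer D) * (InvSeries.lin a₂)⁻¹ := by
    rw [uSer, ser_scl, map_inv, inv_inv]
  have e3 : InvSeries.map θ' (uSer D) ∈ strict B'' := map_mem_strict _ (H80.ser_strict _ _)
  -- the point of the triple product
  let Θ : HRing (stdEven T) ((D.R ⊗ D.R) ⊗ D.R) →+* B'' :=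
    cls H (inrM D.R D.R) θ₂ (InvSeries.map θ' (uSer D))
  have f01 : Θ.comp (HRing.map (inlM (D.R ⊗ D.R) D.R)) = θ₂ := cls_inl H _ _ _
  have s12 : InvSeries.map Θ (H80.ser (inrM D.R D.R ≫ inlM (D.R ⊗ D.R) D.R)
      (inrM (D.R ⊗ D.R) D.R)) = InvSeries.map θ' (uSer D) := cls_ser H _ _ e3
  have f12 : Θ.comp (HRing.map (inrM D.R D.R ▷ D.R)) = θ' := by
    refine ringHom_extG H ?_ ?_
    · rw [e1, RingHom.comp_assoc, ← HRing.map_comp, HRing_map_congr (inlM_whiskerRight _),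
        HRing.map_comp, ← RingHom.comp_assoc, f01]
    · rw [← InvSeries.map_map, map_uSer, ser_congr (inlM_whiskerRight _) (inrM_whiskerRight _), s12]
  have f02 : Θ.comp (HRing.map (inlM D.R D.R ▷ D.R)) = θ₃ := by
    refine ringHom_extG H ?_ ?_
    · rw [l₀, RingHom.comp_assoc, ← HRing.map_comp, HRing_map_congr (inlM_whiskerRight _),
        HRing.map_comp, ← RingHom.comp_assoc, f01, k₀]
    · rw [← InvSeries.map_map, map_uSer, ser_congr (inlM_whiskerRight _) (inrM_whiskerRight _),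
        ← P221.H246.ser_trans _ (inrM D.R D.R ≫ inlM (D.R ⊗ D.R) D.R), map_mul, s12, hθ, e2,
        ← map_uSer, InvSeries.map_map, f01]
  -- the coordinate of the triple product
  have hf : ∀ (z : HRing (stdEven T) (D.R ⊗ D.R)) (y : MP (stdEven T) (D.R ⊗ D.R) W),
      Th H θ₂ χ'' W (z • y) = Θ (HRing.map (inlM (D.R ⊗ D.R) D.R) z) • Th H θ₂ χ'' W y := by
    intro z y
    rw [Th_smul H k₀, ← f01]
    rfl
  let F : MP (stdEven T) ((D.R ⊗ D.R) ⊗ D.R) W →+ V χ'' W :=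
    extInl H (inrM D.R D.R) Θ (Th H θ₂ χ'' W)
  have A : F.comp (MP.push (stdEven T) (inlM D.R D.R ▷ D.R) W) = Th H θ₃ χ'' W := by
    refine hom_ext_inl H (𝟙 D.R) fun z m => ?_
    rw [AddMonoidHom.comp_apply, MP.push_smul, MP.push_push, inlM_whiskerRight, ← MP.push_push,
      extInl_smul_push H _ hf, Th_pL H k₀, Th_smul_pL H l₀, ← f02]
    rfl
  have hF : ∀ (z : HRing (stdEven T) (D.R ⊗ D.R)) (y : MP (stdEven T) (D.R ⊗ D.R) W),
      F.comp (MP.push (stdEven T) (inrM D.R D.R ▷ D.R) W) (z • y) =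
        θ' z • F.comp (MP.push (stdEven T) (inrM D.R D.R ▷ D.R) W) y := by
    intro z y
    rw [AddMonoidHom.comp_apply, AddMonoidHom.comp_apply, MP.push_smul, extInl_smul H _ hf, ← f12]
    rfl
  have C : ∀ y : MP (stdEven T) (D.R ⊗ D.R) W, tr H φ₂ θ₂ a₂ k₀ k₁ W (Th H θ₁ χ' W y) =
      sclM a₂ (F.comp (MP.push (stdEven T) (inrM D.R D.R ▷ D.R) W)) y := by
    intro y
    refine ind_inl H (𝟙 D.R) (motive := fun y => tr H φ₂ θ₂ a₂ k₀ k₁ W (Th H θ₁ χ' W y) =
      sclM a₂ (F.comp (MP.push (stdEven T) (inrM D.R D.R ▷ D.R) W)) y) y ?_ ?_ ?_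
    · simp only [map_zero]
    · intro z m
      have e4 : (F.comp (MP.push (stdEven T) (inrM D.R D.R ▷ D.R) W)).comp (pL D W) =
          (Th H θ₂ χ'' W).comp (pR D W) := by
        refine AddMonoidHom.ext fun m => ?_
        rw [AddMonoidHom.comp_apply, AddMonoidHom.comp_apply, AddMonoidHom.comp_apply,
          MP.push_push, inlM_whiskerRight, ← MP.push_push, extInl_push H _ hf]
      rw [Th_smul_pL H h₀, LinearMap.map_smulₛₗ, tr_mk, sclM_smul a₂ _ θ' hF, scl_scl,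
        mul_inv_cancel, scl_one, sclM_push, e4]
      rfl
    · intro x y hx hy
      simp only [map_add, hx, hy]
  induction x using V.ind with
  | zero => simp only [map_zero]
  | add x y hx hy => simp only [map_add, hx, hy]
  | smul b j x =>
    rw [LinearMap.map_smulₛₗ, LinearMap.map_smulₛₗ, LinearMap.map_smulₛₗ, hφ, tr_of, tr_of,
      LinearMap.map_smulₛₗ, C, ← A, MP.push_of, sclM_of, ← MP.push_of, AddMonoidHom.comp_apply,
      AddMonoidHom.comp_apply, MP.push_push, MP.push_push, inrM_whiskerRight, inrM_whiskerRight,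
      ha, mul_zpow, Units.val_mul, mul_smul, ← map_zpow, Units.coe_map]
    rfl

end comp

end Vale.Agent.P221X.VT
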