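import Vale.Agent.P221X.VT.BC
import Vale.Agent.P221X.VT.Scl

/-!
# P221, block VT: the theory `V χ W = B ⊗_{π_{2*} P} π_{2*}(P ⊗ W)`

`P` is a commutative monoid, `χ : π_{2*} P ⟶ B` a ring homomorphism.

* `V χ W`, `V.mk`, `V.map` (functorial, additive), `V.hom_ext`, `V.ind`;
* `V.cross` (bilinear, natural, associative, commutative, unital), `V.one`, `V.gen`;
* `V.bc φ h W : V χ W →ₛₗ[φ] V χ' W` for `φ ∘ χ = χ'`.
-/

open CategoryTheory MonoidalCategory Limits MonObj

set_option linter.unusedSectionVars false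

universe v u

noncomputable section

namespace Vale.Agent.P221X.VT

open Vale.Agent.P251 Vale.Agent.P251.M Vale.Agent.P251.M.EvenSpheres Vale.Agent.P251.S
  Vale.Agent.P251.X

variable {T : Type u} [Category.{v} T] [Preadditive T] [MonoidalCategory T]
  [MonoidalPreadditive T] [SymmetricCategory T] {E : EvenSpheres T} {P : T} [MonObj P]
  [IsCommMonObj P] {B B' : Type*} [CommRing B] [CommRing B']

/-- `B ⊗_{π_{2*} P} π_{2*}(P ⊗ W)` -/
abbrev V (χ : HRing E P →+* B) (W : T) : Type _ := BC χ (MP E P W)

namespace V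

variable (χ : HRing E P →+* B)

/-- `m ↦ 1 ⊗ m` -/
abbrev mk (W : T) : MP E P W →+ V χ W := BC.mk χ

/-- the class of a homogeneous element -/
abbrev of (W : T) (j : ℤ) (x : E.S j ⟶ P ⊗ W) : V χ W := mk χ W (MP.of E P W j x)

/-- functoriality -/
def map {X Y : T} (f : X ⟶ Y) : V χ X →ₗ[B] V χ Y := BC.map χ (MP.map E P f)

variable {χ}

theorem mk_smul {W : T} (h : HRing E P) (m : MP E P W) : mk χ W (h • m) = χ h • mk χ W m :=
  BC.mk_smul h m

@[simp] theorem map_mk {X Y : T} (f : X ⟶ Y) (m : MP E P X) :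
    map χ f (mk χ X m) = mk χ Y (MP.map E P f m) := BC.map_mk _ m

theorem map_of {X Y : T} (f : X ⟶ Y) (j : ℤ) (x : E.S j ⟶ P ⊗ X) :
    map χ f (of χ X j x) = of χ Y j (x ≫ P ◁ f) := by
  rw [map_mk, MP.map_of]

@[elab_as_elim]
theorem ind {W : T} {motive : V χ W → Prop} (x : V χ W) (zero : motive 0)
    (smul : ∀ (b : B) (j : ℤ) (x : E.S j ⟶ P ⊗ W), motive (b • of χ W j x))
    (add : ∀ x y, motive x → motive y → motive (x + y)) : motive x := by
  induction x using BC.ind with
  | zero => exact zero
  | add x y hx hy => exact add x y hx hy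
  | smul b m =>
    induction m using MP.ind with
    | zero => rw [map_zero, smul_zero]; exact zero
    | of j x => exact smul b j x
    | add x y hx hy => rw [map_add, smul_add]; exact add _ _ hx hy

theorem hom_ext {W : T} {N : Type*} [AddCommGroup N] [Module B' N] {φ : B →+* B'}
    {f g : V χ W →ₛₗ[φ] N} (h : ∀ j x, f (of χ W j x) = g (of χ W j x)) : f = g := by
  refine LinearMap.ext fun x => ?_
  induction x using ind with
  | zero => rw [map_zero, map_zero]
  | smul b j x => rw [LinearMap.map_smulₛₗ, LinearMap.map_smulₛₗ, h]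
  | add x y hx hy => rw [map_add, map_add, hx, hy]

variable (χ)

theorem map_id (X : T) : map χ (𝟙 X) = LinearMap.id :=
  BC.hom_ext fun m => by rw [map_mk, MP.map_id]; rfl

theorem map_comp {X Y Z : T} (f : X ⟶ Y) (g : Y ⟶ Z) :
    map χ (f ≫ g) = (map χ g).comp (map χ f) :=
  BC.hom_ext fun m => by rw [LinearMap.comp_apply, map_mk, map_mk, map_mk, MP.map_comp]; rfl

theorem map_add' {X Y : T} (f g : X ⟶ Y) : map χ (f + g) = map χ f + map χ g :=
  BC.hom_ext fun m => by
    rw [LinearMap.add_apply, map_mk, map_mk, map_mk, MP.map_add', LinearMap.add_apply, map_add]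

theorem map_map {X Y Z : T} (f : X ⟶ Y) (g : Y ⟶ Z) (x : V χ X) :
    map χ g (map χ f x) = map χ (f ≫ g) x := by
  rw [map_comp]
  rfl

theorem map_zero' (X Y : T) : map χ (0 : X ⟶ Y) = 0 := by
  have h := map_add' χ (0 : X ⟶ Y) 0
  rw [add_zero] at h
  exact left_eq_add.1 h

/-- **The external product.** -/
def cross (X Y : T) : V χ X →ₗ[B] V χ Y →ₗ[B] V χ (X ⊗ Y) :=
  BC.lift₂ ((MP.cross E P X Y).compr₂ (mk χ (X ⊗ Y)))
    (fun h m m' => by
      change mk χ (X ⊗ Y) (MP.cross E P X Y (h • m) m') = χ h • mk χ _ (MP.cross E P X Y m m')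
      rw [MP.cross_smul_left, mk_smul])
    (fun h m m' => by
      change mk χ (X ⊗ Y) (MP.cross E P X Y m (h • m')) = χ h • mk χ _ (MP.cross E P X Y m m')
      rw [MP.cross_smul_right, mk_smul])

/-- the unit -/
def one : V χ (𝟙_ T) := mk χ _ (MP.one E P)

/-- the generator of `V χ S^{2j}` -/
def gen (j : ℤ) : V χ (E.S j) := mk χ _ (MP.gen E P j)

variable {χ}

@[simp] theorem cross_mk {X Y : T} (m : MP E P X) (m' : MP E P Y) :
    cross χ X Y (mk χ X m) (mk χ Y m') = mk χ (X ⊗ Y) (MP.cross E P X Y m m') :=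
  BC.lift₂_mk _ _ _ m m'

theorem ind₂ {X Y : T} {motive : V χ X → V χ Y → Prop} (x : V χ X) (y : V χ Y)
    (zl : ∀ y, motive 0 y) (zr : ∀ x, motive x 0)
    (oo : ∀ (b c : B) (m : MP E P X) (n : MP E P Y), motive (b • mk χ X m) (c • mk χ Y n))
    (al : ∀ x x' y, motive x y → motive x' y → motive (x + x') y)
    (ar : ∀ x y y', motive x y → motive x y' → motive x (y + y')) : motive x y := by
  induction x using BC.ind with
  | zero => exact zl y
  | smul b m =>
    induction y using BC.ind with
    | zero => exact zr _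
    | smul c n => exact oo b c m n
    | add y y' h h' => exact ar _ _ _ h h'
  | add x x' h h' => exact al _ _ _ h h'

theorem map_cross {X X' Y Y' : T} (f : X ⟶ X') (g : Y ⟶ Y') (x : V χ X) (y : V χ Y) :
    map χ (f ⊗ₘ g) (cross χ X Y x y) = cross χ X' Y' (map χ f x) (map χ g y) := by
  induction x, y using ind₂ with
  | zl y => simp only [map_zero, LinearMap.zero_apply]
  | zr x => simp only [map_zero]
  | oo b c m n =>
    simp only [map_smul, LinearMap.smul_apply, cross_mk, map_mk, MP.map_cross]
  | al x x' y h h' => simp only [map_add, LinearMap.add_apply, h, h']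
  | ar x y y' h h' => simp only [map_add, h, h']

theorem cross_assoc {X Y Z : T} (x : V χ X) (y : V χ Y) (z : V χ Z) :
    map χ (α_ X Y Z).hom (cross χ (X ⊗ Y) Z (cross χ X Y x y) z) =
      cross χ X (Y ⊗ Z) x (cross χ Y Z y z) := by
  induction z using BC.ind with
  | zero => simp only [map_zero]
  | smul d l =>
    induction x, y using ind₂ with
    | zl y => simp only [map_zero, LinearMap.zero_apply]
    | zr x => simp only [map_zero, LinearMap.zero_apply]
    | oo b c m n =>
      simp only [map_smul, LinearMap.smul_apply, cross_mk, map_mk, MP.cross_assoc]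
    | al x x' y h h' => simp only [map_add, LinearMap.add_apply, h, h']
    | ar x y y' h h' => simp only [map_add, LinearMap.add_apply, h, h']
  | add z z' h h' => simp only [map_add, h, h']

theorem cross_comm {X Y : T} (x : V χ X) (y : V χ Y) :
    map χ (β_ X Y).hom (cross χ X Y x y) = cross χ Y X y x := by
  induction x, y using ind₂ with
  | zl y => simp only [map_zero, LinearMap.zero_apply]
  | zr x => simp only [map_zero, LinearMap.zero_apply]
  | oo b c m n =>
    simp only [map_smul, LinearMap.smul_apply, cross_mk, map_mk, MP.cross_comm]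
    rw [smul_comm]
  | al x x' y h h' => simp only [map_add, LinearMap.add_apply, h, h']
  | ar x y y' h h' => simp only [map_add, LinearMap.add_apply, h, h']

theorem one_cross {Y : T} (y : V χ Y) :
    map χ (λ_ Y).hom (cross χ (𝟙_ T) Y (one χ) y) = y := by
  induction y using BC.ind with
  | zero => simp only [map_zero]
  | smul b m => rw [map_smul, map_smul, one, cross_mk, map_mk, MP.one_cross]
  | add y y' h h' => simp only [map_add, h, h']

theorem cross_one {X : T} (x : V χ X) :
    map χ (ρ_ X).hom (cross χ X (𝟙_ T) x (one χ)) = x := by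
  induction x using BC.ind with
  | zero => simp only [map_zero, LinearMap.zero_apply]
  | smul b m =>
    rw [map_smul, LinearMap.smul_apply, map_smul, one, cross_mk, map_mk, MP.cross_one]
  | add y y' h h' => simp only [map_add, LinearMap.add_apply, h, h']

theorem map_zero_inv_gen : map χ E.zero.inv (gen χ 0) = one χ := by
  rw [gen, map_mk, MP.map_zero_inv_gen, one]

theorem map_mu_gen {i j l : ℤ} (h : i + j = l) :
    map χ (E.mu i j l h).hom (cross χ (E.S i) (E.S j) (gen χ i) (gen χ j)) = gen χ l := by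
  rw [gen, gen, cross_mk, map_mk, MP.map_mu_gen, gen]

/-! ### Change of the ring `B` -/

variable {χ' : HRing E P →+* B'}

/-- change of the ring -/
def bc (φ : B →+* B') (h : φ.comp χ = χ') (W : T) : V χ W →ₛₗ[φ] V χ' W := BC.bc φ h

@[simp] theorem bc_mk (φ : B →+* B') (h : φ.comp χ = χ') {W : T} (m : MP E P W) :
    bc φ h W (mk χ W m) = mk χ' W m := BC.bc_mk φ h m

theorem map_bc (φ : B →+* B') (h : φ.comp χ = χ') {X Y : T} (f : X ⟶ Y) (x : V χ X) :
    map χ' f (bc φ h X x) = bc φ h Y (map χ f x) := by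
  induction x using BC.ind with
  | zero => simp only [map_zero]
  | smul b m => simp only [LinearMap.map_smulₛₗ, map_smul, bc_mk, map_mk]
  | add x y hx hy => simp only [map_add, hx, hy]

end V

end Vale.Agent.P221X.VT
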